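import Vale.Agent.P269C.Defs

/-!
Block C of P269: auxiliary definitions and the statements of the rows (forms on `ℂ^D`, groupoid
integration, calculus on the fibres).
-/

set_option autoImplicit false
set_option linter.all false
set_option maxSynthPendingDepth 3

noncomputable section

namespace Vale.Agent.P269C

open Set Filter Asymptotics MeasureTheory MvPolynomial Vale.Agent.P273.H183 Vale.Agent.P272.K
open scoped Topology ContDiff Matrix ComplexOrder Classical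

/-! ### forms on `ℂ^D` -/

/-- pull back of forms by a linear map with matrix `J` -/
def pb {D E : ℕ} (J : Matrix (Fin D) (Fin E) ℂ) : Po D →ₐ[ℂ] Po E :=
  aeval fun kl => ∑ m, ∑ n, C (J kl.1 m * star (J kl.2 n)) * X (m, n)

/-- the complex Jacobian matrix -/
def jac {D E : ℕ} (φ : Cm E → Cm D) (y : Cm E) : Matrix (Fin D) (Fin E) ℂ :=
  Matrix.of fun k m => dz m (fun x => φ x k) y

/-- the `(1,1)`-form with matrix `M` -/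
def Fm {D : ℕ} (M : Matrix (Fin D) (Fin D) ℂ) : Po D := ∑ k, ∑ l, C (M k l) * X (k, l)

/-- `i ∂ ∂̄ u / 2π` -/
def dd {D : ℕ} (u : Cm D → ℝ) (z : Cm D) : Po D := Fm (cHess u z)

/-- smooth and closed at `z` -/
structure Cl {D : ℕ} (β : Cm D → Po D) (z : Cm D) : Prop where
  sm : ∀ m, ContDiffAt ℝ ∞ (fun y => coeff m (β y)) z
  cl : ∀ l γ, ∑ k, dz k (fun y => tau (γ * X (k, l) * β y)) z = 0

/-- near `z` a polynomial in Chern forms of smooth metrics -/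
inductive Gd {D : ℕ} (z : Cm D) : (Cm D → Po D) → Prop
  | cst (c : ℂ) : Gd z fun _ => C c
  | add {β γ} : Gd z β → Gd z γ → Gd z fun y => β y + γ y
  | mul {β γ} : Gd z β → Gd z γ → Gd z fun y => β y * γ y
  | ch (n k : ℕ) (G : Cm D → Matrix (Fin n) (Fin n) ℂ) :
      (∀ p q, ContDiffAt ℝ ∞ (fun y => G y p q) z) → (G z).det ≠ 0 → Gd z (chern G k)
  | congr {β γ} : Gd z β → γ =ᶠ[𝓝 z] β → Gd z γ

/-- the hyperplane `z_last = 0` -/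
def sl {D : ℕ} (b : Cm D) : Cm (D + 1) := Fin.snoc (α := fun _ => ℂ) b 0

/-- the projection -/
def pr {D : ℕ} (y : Cm (D + 1)) : Cm D := Fin.init (α := fun _ => ℂ) y

/-- almost every point near `y` -/
def nae {D : ℕ} (y : Cm D) : Filter (Cm D) := 𝓝 y ⊓ ae volume

/-- Row TAU: algebra of `tau` and `pb`. -/
structure TAU : Prop where
  add : ∀ {D : ℕ} (P Q : Po D), tau (P + Q) = tau P + tau Q
  cmul : ∀ {D : ℕ} (c : ℂ) (P : Po D), tau (C c * P) = c * tau P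
  det : ∀ {D : ℕ} (J : Matrix (Fin D) (Fin D) ℂ) (P : Po D),
    tau (pb J P) = ((‖J.det‖ ^ 2 : ℝ) : ℂ) * tau P
  up : ∀ {D : ℕ} (J : Matrix (Fin D) (Fin (D + 1)) ℂ) (P : Po D), tau (pb J P) = 0
  comp : ∀ {D E F : ℕ} (J : Matrix (Fin D) (Fin E) ℂ) (K : Matrix (Fin E) (Fin F) ℂ) (P : Po D),
    pb K (pb J P) = pb (J * K) P
  one : ∀ {D : ℕ} (P : Po D), pb 1 P = P
  fm : ∀ {D E : ℕ} (J : Matrix (Fin D) (Fin E) ℂ) (M : Matrix (Fin D) (Fin D) ℂ),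
    pb J (Fm M) = Fm (Jᵀ * M * J.map star)
  fib : ∀ {D : ℕ} (M : Matrix (Fin (D + 1)) (Fin (D + 1)) ℂ) (P : Po D) (y : Cm (D + 1)),
    tau (Fm M * pb (jac pr y) P) = M (Fin.last D) (Fin.last D) / Real.pi * tau P
  res : ∀ {D : ℕ} (P : Po (D + 1)) (b : Cm D),
    tau (X (Fin.last D, Fin.last D) * P) = tau (pb (jac sl b) P) / Real.pi
  hom : ∀ {D n : ℕ} (P : Po D), P.IsHomogeneous n → n ≠ D → tau P = 0
  sm : ∀ {D : ℕ} (β : Cm D → Po D) (z : Cm D) (k : WithTop ℕ∞),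
    (∀ m, ContDiffAt ℝ k (fun y => coeff m (β y)) z) → ContDiffAt ℝ k (fun y => tau (β y)) z
  smm : ∀ {D E : ℕ} (β γ : Cm E → Po D) (z : Cm E) (k : WithTop ℕ∞),
    (∀ m, ContDiffAt ℝ k (fun y => coeff m (β y)) z) →
    (∀ m, ContDiffAt ℝ k (fun y => coeff m (γ y)) z) →
    ∀ m, ContDiffAt ℝ k (fun y => coeff m (β y * γ y)) z
  smp : ∀ {D E F : ℕ} (J : Cm F → Matrix (Fin D) (Fin E) ℂ) (β : Cm F → Po D) (z : Cm F)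
    (k : WithTop ℕ∞), (∀ p q, ContDiffAt ℝ k (fun y => J y p q) z) →
    (∀ m, ContDiffAt ℝ k (fun y => coeff m (β y)) z) →
    ∀ m, ContDiffAt ℝ k (fun y => coeff m (pb (J y) (β y))) z

/-- Row CHN: naturality of Chern forms. -/
structure CHN : Prop where
  nat : ∀ {D E n : ℕ} (φ : Cm E → Cm D) (y : Cm E) (G : Cm D → Matrix (Fin n) (Fin n) ℂ)
    (A G' : Cm E → Matrix (Fin n) (Fin n) ℂ) (k : ℕ), AnalyticAt ℂ φ y →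
    (∀ p q, ContDiffAt ℝ 2 (fun x => G x p q) (φ y)) → (G (φ y)).det ≠ 0 →
    (∀ p q, AnalyticAt ℂ (fun x => A x p q) y) → (A y).det ≠ 0 →
    (∀ᶠ x in 𝓝 y, G' x = A x * G (φ x) * (A x)ᴴ) → chern G' k y = pb (jac φ y) (chern G k (φ y))
  line : ∀ {D : ℕ} (f : Cm D → ℝ) (z : Cm D), ContDiffAt ℝ 2 f z → 0 < f z →
    chern (fun y => !![(f y : ℂ)]) 1 z = -dd (fun y => Real.log (f y)) z
  ddn : ∀ {D E : ℕ} (φ : Cm E → Cm D) (y : Cm E) (u : Cm D → ℝ), AnalyticAt ℂ φ y →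
    ContDiffAt ℝ 2 u (φ y) → dd (fun x => u (φ x)) y = pb (jac φ y) (dd u (φ y))
  dda : ∀ {D : ℕ} (u v : Cm D → ℝ) (z : Cm D), ContDiffAt ℝ 2 u z → ContDiffAt ℝ 2 v z →
    dd (fun x => u x + v x) z = dd u z + dd v z ∧ dd (fun x => u x - v x) z = dd u z - dd v z
  ddc : ∀ {D : ℕ} (u v : Cm D → ℝ) (z : Cm D), u =ᶠ[𝓝 z] v → dd u z = dd v z
  ddh : ∀ {D : ℕ} (f : Cm D → ℂ) (z : Cm D), AnalyticAt ℂ f z → f z ≠ 0 →
    dd (fun x => Real.log (‖f x‖ ^ 2)) z = 0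
  chain : ∀ {D E F : ℕ} (φ : Cm E → Cm D) (ψ : Cm F → Cm E) (y : Cm F), AnalyticAt ℂ φ (ψ y) →
    AnalyticAt ℂ ψ y → jac (fun x => φ (ψ x)) y = jac φ (ψ y) * jac ψ y
  jid : ∀ {D : ℕ} (y : Cm D), jac (fun x => x) y = 1
  jc : ∀ {D E : ℕ} (φ ψ : Cm E → Cm D) (y : Cm E), φ =ᶠ[𝓝 y] ψ → jac φ y = jac ψ y
  jan : ∀ {D E : ℕ} (φ : Cm E → Cm D) (y : Cm E), AnalyticAt ℂ φ y →
    ∀ p q, AnalyticAt ℂ (fun x => jac φ x p q) y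
  gpb : ∀ {D E : ℕ} (φ : Cm E → Cm D) (y : Cm E) (β : Cm D → Po D), AnalyticAt ℂ φ y →
    Gd (φ y) β → Gd y fun x => pb (jac φ x) (β (φ x))

/-- Row GDC: Chern forms are closed. -/
def GDC : Prop := ∀ (D : ℕ) (z : Cm D) (β : Cm D → Po D), Gd z β → Cl β z

/-- Row DC: double counting between two atlases of a groupoid. -/
def DC : Prop := ∀ (D : ℕ) (ι κ : Type) [Fintype ι] [Fintype κ] (w : ι → Cm D → ℝ)
  (ρ : κ → Cm D → ℝ) (T : ι → Cm D → ℂ) (T' : κ → Cm D → ℂ) (N : ι → κ → Cm D → Cm D → ℕ)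
  (Z : ι → Set (Cm D)),
  (∀ a, Continuous (w a) ∧ HasCompactSupport (w a) ∧ volume (Z a) = 0) →
  (∀ b, Continuous (ρ b) ∧ HasCompactSupport (ρ b) ∧
    ∀ x ∈ tsupport (ρ b), ContinuousAt (T' b) x) →
  (∀ a, ∀ᵐ y, w a y ≠ 0 → ∑ b, ∑ᶠ x, (N a b y x : ℝ) * ρ b x = 1) →
  (∀ b, ∀ᵐ x, ρ b x ≠ 0 → ∑ a, ∑ᶠ y ∈ (Z a)ᶜ, (N a b y x : ℝ) * w a y = 1) →
  (∀ a b, ∀ y₀ ∈ tsupport (w a), ∃ (k : ℕ) (φ : Fin k → Cm D → Cm D),
    (∀ j, AnalyticAt ℂ (φ j) y₀) ∧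
    (∀ᶠ y in 𝓝 y₀, ∀ x ∈ tsupport (ρ b), N a b y x = (Finset.univ.filter fun j => φ j y = x).card) ∧
    ∀ j, φ j y₀ ∈ tsupport (ρ b) →
      ∀ᶠ y in nae y₀, T a y = ((‖(jac (φ j) y).det‖ ^ 2 : ℝ) : ℂ) * T' b (φ j y)) →
  ∑ a, ∫ y, w a y * T a y = ∑ b, ∫ x, ρ b x * T' b x

/-- Row KEY: the theorem of Stokes on a groupoid. -/
def KEY : Prop := ∀ (D : ℕ) (ι : Type) [Fintype ι] (ρ u : ι → Cm D → ℝ) (β : ι → Cm D → Po D)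
  (N : ι → ι → Cm D → Cm D → ℕ),
  (∀ a, ContDiff ℝ ∞ (ρ a) ∧ HasCompactSupport (ρ a)) →
  (∀ a, ∀ y ∈ tsupport (ρ a), ∀ᶠ x in 𝓝 y, ContDiffAt ℝ ∞ (u a) x ∧ Cl (β a) x) →
  (∀ a b y x, N a b y x = N b a x y) →
  (∀ a, ∀ y ∈ tsupport (ρ a), ∑ b, ∑ᶠ x, (N a b y x : ℝ) * ρ b x = 1) →
  (∀ a b, ∀ y₀ ∈ tsupport (ρ a), ∃ (k : ℕ) (φ : Fin k → Cm D → Cm D),
    (∀ j, AnalyticAt ℂ (φ j) y₀) ∧
    (∀ᶠ y in 𝓝 y₀, ∀ x ∈ tsupport (ρ b), N a b y x = (Finset.univ.filter fun j => φ j y = x).card) ∧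
    ∀ j, φ j y₀ ∈ tsupport (ρ b) →
      ∀ᶠ y in nae y₀, u a y = u b (φ j y) ∧ β a y = pb (jac (φ j) y) (β b (φ j y))) →
  ∑ a, ∫ y, ρ a y * tau (dd (u a) y * β a y) = 0

/-- Row PL: the local formula of Poincare and Lelong. -/
def PL : Prop := ∀ (D : ℕ) (w v : Cm (D + 1) → ℝ) (γ : Cm (D + 1) → Po (D + 1)),
  ContDiff ℝ ∞ w → HasCompactSupport w →
  (∀ y ∈ tsupport w, ContDiffAt ℝ ∞ v y ∧ ∀ m, ContDiffAt ℝ ∞ (fun x => coeff m (γ x)) y) →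
  Tendsto (fun ε : ℝ => ∫ y, w y *
      tau (dd (fun x => Real.log (‖x (Fin.last D)‖ ^ 2 * Real.exp (v x) + ε)) y * γ y))
    (𝓝[>] 0) (𝓝 ((∫ y, w y * tau (dd v y * γ y)) +
      ∫ b, w (sl b) * tau (pb (jac sl b) (γ (sl b))))) ∧
  Tendsto (fun ε : ℝ => ∫ y, w y * tau (dd (fun x => Real.log (Real.exp (v x) + ε)) y * γ y))
    (𝓝[>] 0) (𝓝 (∫ y, w y * tau (dd v y * γ y)))

/-- Row ALG: string and dilaton equations from the comparison of the classes. -/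
def ALG : Prop := ∀ (T : Type 1) (B L : Type) [CommMonoid T] [CommMonoid B] [Fintype L]
  (GT : Submonoid T) (GB : Submonoid B) (p : B →* T) (ψ : L → B) (ψ' : Option L → T)
  (I : B → ℂ) (J : T → ℂ) (l : L → T → ℂ) (c : ℂ),
  (∀ i, ψ i ∈ GB) → (∀ o, ψ' o ∈ GT) → (∀ β ∈ GB, p β ∈ GT) →
  (∀ i, ∀ γ ∈ GT, J (ψ' (some i) * γ) = J (p (ψ i) * γ) + l i γ) →
  (∀ i, ∀ γ ∈ GT, l i (ψ' (some i) * γ) = 0 ∧ l i (ψ' none * γ) = 0 ∧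
    ∀ j, j ≠ i → l i (ψ' (some j) * γ) = l i (p (ψ j) * γ)) →
  (∀ β ∈ GB, J (p β) = 0 ∧ J (ψ' none * p β) = c * I β ∧ ∀ i, l i (p β) = I β) →
  ∀ α ∈ GB, ∀ m : L → ℕ,
    J (p α * ∏ i, ψ' (some i) ^ m i) = ∑ j ∈ Finset.univ.filter (fun j => m j ≠ 0),
      I (α * ∏ i, ψ i ^ Function.update m j (m j - 1) i) ∧
    J (p α * (ψ' none * ∏ i, ψ' (some i) ^ m i)) = c * I (α * ∏ i, ψ i ^ m i)

/-! ### fibres -/

variable {L L' : Type} {m m' g D : ℕ}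

/-- `p` is not a node -/
def Sp (C : Fam L m) (p : C.X) : Prop :=
  ∀ U x y t, IsChart C.π C.hol U x y t → p ∈ U → x p ≠ 0 ∨ y p ≠ 0

/-- the fibre over `b` is smooth -/
def Sm (C : Fam L m) (b : Cm m) : Prop := ∀ p ∈ C.fib b, Sp C p

/-- `Φ` induces an isomorphism of fibres -/
def Is (C : Fam L m) (b : Cm m) (C' : Fam L m') (b' : Cm m') (Φ : C.X → C'.X) : Prop :=
  (fun p : C.fib b => Φ p) ∈ Iso C b C' b'

/-- `(φ, Φ)` is a morphism of families at `a` (the clause of `Kur`) -/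
def Mor (C' : Fam L m') (C : Fam L m) (φ : Cm m' → Cm m) (Φ : C'.X → C.X) (a : Cm m') : Prop :=
  φ a ∈ C.B ∧ AnalyticAt ℂ φ a ∧ Is C' a C (φ a) Φ ∧ ∀ p ∈ C'.fib a,
    ContinuousAt Φ p ∧ ∀ f, C.hol f (Φ p) → C'.hol (fun q => f (Φ q)) p

/-- change of the labels (forgetting or renaming marked points) -/
def sub (j : L → L') (C : Fam L' m) : Fam L m := ⟨C.B, C.X, C.π, C.hol, fun i => C.s (j i)⟩

/-- Row K2: calculus on a stable family. -/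
structure K2 : Prop where
  cπ : ∀ {L : Type} {m : ℕ} {C : Fam L m}, C.IsStable → Continuous C.π
  hc : ∀ {L : Type} {m : ℕ} {C : Fam L m}, C.IsStable → ∀ {f p}, C.hol f p → ContinuousAt f p
  hcg : ∀ {L : Type} {m : ℕ} {C : Fam L m}, C.IsStable → ∀ {f f' p}, C.hol f p → f' =ᶠ[𝓝 p] f →
    C.hol f' p
  hev : ∀ {L : Type} {m : ℕ} {C : Fam L m}, C.IsStable → ∀ {f p}, C.hol f p →
    ∀ᶠ q in 𝓝 p, C.hol f q
  han : ∀ {L : Type} {m : ℕ} {C : Fam L m}, C.IsStable → ∀ {f f' p} (F : Cm m × ℂ × ℂ → ℂ),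
    C.hol f p → C.hol f' p → AnalyticAt ℂ F (C.π p, f p, f' p) →
    C.hol (fun q => F (C.π q, f q, f' q)) p
  fan : ∀ {L : Type} {m : ℕ} {C : Fam L m}, C.IsStable → ∀ {f f' p} (F : ℂ × ℂ → ℂ),
    FH C f p → FH C f' p → AnalyticAt ℂ F (f p, f' p) → FH C (fun q => F (f q, f' q)) p
  fc : ∀ {L : Type} {m : ℕ} {C : Fam L m}, C.IsStable → ∀ {f p}, FH C f p →
    Tendsto f (nf C p) (𝓝 (f p)) ∧ ∀ᶠ q in nf C p, FH C f q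
  sp : ∀ {L : Type} {m : ℕ} {C : Fam L m}, C.IsStable → ∀ {p U x y t},
    IsChart C.π C.hol U x y t → p ∈ U → (x p ≠ 0 → C.hol x p ∧ Co C x p) ∧
      (y p ≠ 0 → C.hol y p ∧ Co C y p)
  ex : ∀ {L : Type} {m : ℕ} {C : Fam L m}, C.IsStable → ∀ {p}, Sp C p → ∃ z, C.hol z p ∧ Co C z p
  csp : ∀ {L : Type} {m : ℕ} {C : Fam L m}, C.IsStable → ∀ {z p}, Co C z p → Sp C p
  smo : ∀ {L : Type} {m : ℕ} {C : Fam L m}, C.IsStable → IsOpen {b | b ∈ C.B ∧ Sm C b}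
  ev : ∀ {L : Type} {m : ℕ} {C : Fam L m}, C.IsStable → ∀ {z p}, C.hol z p → Co C z p →
    ∀ᶠ q in 𝓝 p, C.hol z q ∧ Co C z q
  evf : ∀ {L : Type} {m : ℕ} {C : Fam L m}, C.IsStable → ∀ {z p}, Co C z p →
    ∀ᶠ q in nf C p, Co C z q
  dr : ∀ {L : Type} {m : ℕ} {C : Fam L m}, C.IsStable → ∀ {z f p}, Co C z p → FH C f p →
    ∃ c, FH C c p ∧ ∀ᶠ q in nf C p, Dr C f z q (c q)
  drh : ∀ {L : Type} {m : ℕ} {C : Fam L m}, C.IsStable → ∀ {z f p}, C.hol z p → Co C z p →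
    C.hol f p → ∃ c, C.hol c p ∧ ∀ᶠ q in 𝓝 p, Dr C f z q (c q)
  uq : ∀ {L : Type} {m : ℕ} {C : Fam L m}, C.IsStable → ∀ {z f p c c'}, Co C z p →
    Dr C f z p c → Dr C f z p c' → c = c'
  ne : ∀ {L : Type} {m : ℕ} {C : Fam L m}, C.IsStable → ∀ {z f p c}, Co C z p → FH C f p →
    Dr C f z p c → (Co C f p ↔ c ≠ 0)
  ch : ∀ {L : Type} {m : ℕ} {C : Fam L m} {f z w p c c'}, Dr C f z p c → Dr C z w p c' →
    Dr C f w p (c * c')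
  par : ∀ {L : Type} {m : ℕ} {C : Fam L m}, C.IsStable → ∀ {z p}, Co C z p → ∃ c : ℂ → C.X,
    c (z p) = p ∧ (∀ᶠ q in nf C p, c (z q) = q) ∧ ∀ᶠ w in 𝓝 (z p), z (c w) = w ∧
      C.π (c w) = C.π p ∧ map c (𝓝 w) = nf C (c w) ∧
      (∀ f, FH C f (c w) ↔ AnalyticAt ℂ (fun s => f (c s)) w) ∧
      ∀ f d, Dr C f z (c w) d ↔ HasDerivAt (fun s => f (c s)) d w
  pch : ∀ {L : Type} {m : ℕ} {C : Fam L m}, C.IsStable → ∀ {z p}, C.hol z p → Co C z p →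
    ∃ σ : Cm m × ℂ → C.X, σ (C.π p, z p) = p ∧ (∀ᶠ q in 𝓝 p, σ (C.π q, z q) = q) ∧
      ∀ᶠ w in 𝓝 (C.π p, z p), C.π (σ w) = w.1 ∧ z (σ w) = w.2 ∧ map σ (𝓝 w) = 𝓝 (σ w) ∧
        ∀ f, C.hol f (σ w) ↔ AnalyticAt ℂ (fun s => f (σ s)) w

/-- Row K1: the groupoid of isomorphisms of fibres. -/
structure K1 : Prop where
  refl : ∀ {L : Type} {m : ℕ} (C : Fam L m) b, Is C b C b id
  mem : ∀ {L : Type} {m m' : ℕ} {C : Fam L m} {C' : Fam L m'} {b b' Φ}, Is C b C' b' Φ →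
    BijOn Φ (C.fib b) (C'.fib b')
  comp : ∀ {L : Type} {m m' m'' : ℕ} {C : Fam L m} {C' : Fam L m'} {C'' : Fam L m''}
    {b b' b'' Φ Ψ}, Is C b C' b' Φ → Is C' b' C'' b'' Ψ → Is C b C'' b'' fun p => Ψ (Φ p)
  inv : ∀ {L : Type} {m m' : ℕ} {C : Fam L m} {C' : Fam L m'} {b b' Φ}, C.IsStable → C'.IsStable →
    b ∈ C.B → Is C b C' b' Φ → b' ∈ C'.B ∧ ∃ Ψ, Is C' b' C b Ψ ∧ (∀ p ∈ C.fib b, Ψ (Φ p) = p) ∧
      ∀ q ∈ C'.fib b', Φ (Ψ q) = q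
  ext : ∀ {L : Type} {m m' : ℕ} {C : Fam L m} {C' : Fam L m'} {b b'}, C.IsStable → b ∈ C.B →
    ∀ Θ ∈ Iso C b C' b', ∃ Φ : C.X → C'.X, Θ = fun p : C.fib b => Φ p
  card : ∀ {L : Type} {m m' : ℕ} {C : Fam L m} {C' : Fam L m'} {b b'}, C.IsStable → C'.IsStable →
    b ∈ C.B → b' ∈ C'.B → (Iso C b C' b').ncard = (Iso C' b' C b).ncard
  nf : ∀ {L L' : Type} {m m' : ℕ} {C : Fam L m} {C' : Fam L' m'} {b b'} {Φ : C.X → C'.X},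
    C.IsStable → C'.IsStable → Is (fg C) b (fg C') b' Φ → ∀ p ∈ C.fib b,
    map Φ (nf C p) = nf C' (Φ p) ∧ (∀ f, FH C' f (Φ p) ↔ FH C (fun q => f (Φ q)) p) ∧
    (∀ z, Co C' z (Φ p) ↔ Co C (fun q => z (Φ q)) p) ∧
    (∀ f z c, Dr C' f z (Φ p) c ↔ Dr C (fun q => f (Φ q)) (fun q => z (Φ q)) p c) ∧
    (Sp C' (Φ p) ↔ Sp C p)
  fg : ∀ {L : Type} {m m' : ℕ} {C : Fam L m} {C' : Fam L m'} {b b'} {Φ : C.X → C'.X},
    Is C b C' b' Φ ↔ Is (fg C) b (fg C') b' Φ ∧ ∀ i, C.π (C.s i b) = b → Φ (C.s i b) = C'.s i b'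
  cnt : ∀ {L : Type} {m m' : ℕ} {C : Fam L m} {C' : Fam L m'}, Kur C → C'.IsStable →
    ∀ b ∈ C'.B, ∀ K ⊆ C.B, IsCompact K →
    ∃ (k : ℕ) (φ : Fin k → Cm m' → Cm m) (Φ : Fin k → C'.X → C.X), ∀ᶠ a in 𝓝 b,
      (∀ j, Mor C' C (φ j) (Φ j) a) ∧ ∀ x ∈ K, (Iso C' a C x).Finite ∧
        ∀ (p : C'.fib a → C.X → Prop), {Θ ∈ Iso C' a C x | ∀ q, p q (Θ q)}.ncard =
          (Finset.univ.filter fun j => φ j a = x ∧ ∀ q, p q (Φ j q)).card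

/-- Row NUL: almost all fibres of a Kuranishi family are smooth. -/
def NUL : Prop := ∀ (L : Type) (m : ℕ) (C : Fam L m), Kur C → ∀ᵐ b, b ∈ C.B → Sm C b

/-- the type of the metrics on cotangent lines -/
abbrev Hm (L : Type) : Type 1 := ∀ m (C : Fam L m), Cm m → L → (C.X → ℂ) → ℝ

/-- the type of the metrics on the Hodge bundle -/
abbrev Gm (g : ℕ) : Type 1 :=
  ∀ m (C : Fam Empty m), Cm m → (Fin g → Df C) → Matrix (Fin g) (Fin g) ℂ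

/-- Row PSI: the forms `psi`. -/
structure PSI : Prop where
  eq : ∀ {L : Type} {m : ℕ} {h : Hm L} {C : Fam L m}, IsPsi h → C.IsStable → ∀ b ∈ C.B, ∀ i z,
    C.hol z (C.s i b) → Co C z (C.s i b) →
    psi h C b i = -dd (fun a => Real.log (h m C a i z)) b
  gd : ∀ {L : Type} {m : ℕ} {h : Hm L} {C : Fam L m}, IsPsi h → C.IsStable → ∀ b ∈ C.B, ∀ i,
    Gd b fun a => psi h C a i
  nat : ∀ {L : Type} {m m' : ℕ} {h : Hm L} {C : Fam L m} {C' : Fam L m'} {φ Φ}, IsPsi h →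
    C.IsStable → C'.IsStable → ∀ b ∈ C'.B, (∀ᶠ a in 𝓝 b, Mor C' C φ Φ a) → ∀ i,
    psi h C' b i = pb (jac φ b) (psi h C (φ b) i)

/-- Row BASN: bases of differentials pull back along isomorphisms of smooth fibres. -/
def BASN : Prop := ∀ (L L' : Type) (m m' g : ℕ) (C : Fam L m) (C' : Fam L' m') (b : Cm m)
  (b' : Cm m') (Φ : C.X → C'.X) (e' : Fin g → Df C'), C.IsStable → C'.IsStable → b ∈ C.B → Sm C b →
  Is (fg C) b (fg C') b' Φ → Bas C' b' e' → ∃ e : Fin g → Df C, Bas C b e ∧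
    ∀ p ∈ C.fib b, ∀ z z', Co C z p → (∀ q ∈ C.fib b, z q = z' (Φ q)) → ∀ j, e j z p = e' j z' (Φ p)

/-- Row LAM: the forms `lam`. -/
structure LAM : Prop where
  eq : ∀ {L : Type} [Finite L] {m g : ℕ} {G : Gm g} {C : Fam L m}, IsLam G → C.IsStable →
    ∀ b ∈ C.B, ∀ e : Fin g → Df C, Fr C b e → ∀ k,
    lam G C b k = chern (fun a => G m (fg C) a e) k b
  gd : ∀ {L : Type} [Finite L] {m g : ℕ} {G : Gm g} {C : Fam L m}, IsLam G → C.IsStable →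
    ∀ b ∈ C.B, (∃ e : Fin g → Df C, Fr C b e) → ∀ k, Gd b fun a => lam G C a k
  nat : ∀ {L L₁ L₂ : Type} [Finite L₁] [Finite L₂] {m m₁ m₂ g : ℕ} {G : Gm g} {E : Fam L m}
    {C₁ : Fam L₁ m₁} {C₂ : Fam L₂ m₂} {φ₁ φ₂} {Φ₁ : E.X → C₁.X} {Φ₂ : E.X → C₂.X}, IsLam G →
    E.IsStable → C₁.IsStable → C₂.IsStable → ∀ y ∈ E.B, Sm E y →
    (∀ᶠ a in 𝓝 y, Mor (fg E) (fg C₁) φ₁ Φ₁ a) → (∀ᶠ a in 𝓝 y, Mor (fg E) (fg C₂) φ₂ Φ₂ a) →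
    (∃ e : Fin g → Df C₁, Fr C₁ (φ₁ y) e) → (∃ e : Fin g → Df C₂, Fr C₂ (φ₂ y) e) → ∀ k,
    pb (jac φ₁ y) (lam G C₁ (φ₁ y) k) = pb (jac φ₂ y) (lam G C₂ (φ₂ y) k)

end Vale.Agent.P269C
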