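import Vale.Agent.P269C.Spec
import Vale.Agent.P269CG.Tau
import Vale.Agent.P269CL.Pt
import Vale.Agent.P272.K.QN.H705.PullLoc

/-!
Block C of P269: naturality of the Chern forms.
-/

set_option autoImplicit false
set_option linter.all false
set_option maxSynthPendingDepth 3

noncomputable section

namespace Vale.Agent.P269C

open Set Filter MvPolynomial Vale.Agent.P272.K Vale.Agent.P272.K.C2
open scoped Topology ContDiff Matrix

variable {D E F : ℕ} {ι : Type} [Fintype ι] [DecidableEq ι]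

/-- the connection matrices -/
def th (i : Fin D) (G : Cm D → Matrix ι ι ℂ) (y : Cm D) : Matrix ι ι ℂ := DM i G y * (G y)⁻¹

/-- the curvature matrix -/
def cu (G : Cm D → Matrix ι ι ℂ) (z : Cm D) : Matrix ι ι (Po D) :=
  Matrix.of fun p q => ∑ i, ∑ j, C (DMb j (th i G) z p q) * X (i, j)

theorem chern_eq (G : Cm D → Matrix ι ι ℂ) (k : ℕ) (z : Cm D) :
    chern G k z = homogeneousComponent k (1 - cu G z).det := rfl

theorem pb_X (J : Matrix (Fin D) (Fin E) ℂ) (k l : Fin D) :
    pb J (X (k, l)) = ∑ m, ∑ n, C (J k m * star (J l n)) * X (m, n) := aeval_X _ _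

theorem pb_C (J : Matrix (Fin D) (Fin E) ℂ) (c : ℂ) : pb J (C c) = C c := aeval_C _ _

theorem hc_pb (J : Matrix (Fin D) (Fin E) ℂ) (P : Po D) (k : ℕ) :
    homogeneousComponent k (pb J P) = pb J (homogeneousComponent k P) := by
  conv_lhs => rw [← P.sum_homogeneousComponent]
  rw [map_sum, map_sum, Finset.sum_eq_single k]
  · rw [homogeneousComponent_of_mem (P269CG.pb_hom J
      (homogeneousComponent_isHomogeneous k P)), if_pos rfl]
  · intro i _ h
    rw [homogeneousComponent_of_mem (P269CG.pb_hom J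
      (homogeneousComponent_isHomogeneous i P)), if_neg h.symm]
  · intro h
    rw [homogeneousComponent_eq_zero k P (by simpa using h), map_zero, map_zero]

theorem sum4 {α β γ δ M : Type} [Fintype α] [Fintype β] [Fintype γ] [Fintype δ] [AddCommMonoid M]
    (f : α → β → γ → δ → M) (g : γ → M)
    (h : ∀ a ∈ Finset.univ, ∑ b, ∑ i, ∑ j, f i j a b = g a) :
    ∑ i, ∑ j, ∑ a, ∑ b, f i j a b = ∑ a, g a := by
  rw [Finset.sum_congr rfl fun i _ => Finset.sum_comm, Finset.sum_comm]
  refine Finset.sum_congr rfl fun a _ => ?_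
  rw [Finset.sum_congr rfl fun i _ => Finset.sum_comm, Finset.sum_comm]
  exact h a (Finset.mem_univ _)

theorem mc_th {m m' : WithTop ℕ∞} {G : Cm D → Matrix ι ι ℂ} {z : Cm D} (hG : MC m G z)
    (h0 : (G z).det ≠ 0) (h : m' + 1 ≤ m) (i : Fin D) : MC m' (th i G) z :=
  (hG.DM h).mul ((hG.inv h0).mono (le_self_add.trans h))

theorem an_mc {A : Cm D → Matrix ι ι ℂ} {z : Cm D} (h : ∀ p q, AnalyticAt ℂ (fun x => A x p q) z)
    (m : WithTop ℕ∞) : MC m A z := fun p q => ((h p q).contDiffAt (n := m)).restrict_scalars ℝ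

theorem an_dmb {A : Cm D → Matrix ι ι ℂ} {z : Cm D} (h : ∀ p q, AnalyticAt ℂ (fun x => A x p q) z)
    (j : Fin D) : DMb j A z = 0 := by
  ext p q
  exact dzb_of_holo (h p q).differentiableAt

theorem an_ev {A : Cm D → Matrix ι ι ℂ} {z : Cm D} (h : ∀ p q, AnalyticAt ℂ (fun x => A x p q) z) :
    ∀ᶠ y in 𝓝 z, ∀ p q, AnalyticAt ℂ (fun x => A x p q) y :=
  eventually_all.2 fun p => eventually_all.2 fun q => (h p q).eventually_analyticAt

theorem chern_congr {G G' : Cm D → Matrix ι ι ℂ} {z : Cm D} (h : G =ᶠ[𝓝 z] G') (k : ℕ) :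
    chern G k z = chern G' k z := by
  have e : ∀ i, th i G =ᶠ[𝓝 z] th i G' := fun i => by
    filter_upwards [h, DM_eventuallyEq (k := i) h] with y h1 h2
    rw [th, th, h1, h2]
  rw [chern_eq, chern_eq, cu, cu]
  simp only [fun i j => DMb_congr (k := j) (e i)]

/-- change of the frame -/
theorem chern_gauge {A G : Cm D → Matrix ι ι ℂ} {z : Cm D} (hG : MC 2 G z) (h0 : (G z).det ≠ 0)
    (hA : ∀ p q, AnalyticAt ℂ (fun x => A x p q) z) (hA0 : (A z).det ≠ 0) (k : ℕ) :
    chern (fun x => A x * G x * (A x)ᴴ) k z = chern G k z := by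
  have e1 : ∀ i, th i (fun x => A x * G x * (A x)ᴴ) =ᶠ[𝓝 z]
      fun x => (DM i A x + A x * th i G x) * (A x)⁻¹ := fun i => by
    filter_upwards [MC.eventually (q := 2) hG, an_ev hA,
      det_ne_zero_eventually (hG.mono (by norm_num)) h0,
      det_ne_zero_eventually (an_mc hA 0) hA0] with x h1 h2 h3 h4
    have a1 : MD A x := (an_mc h2 1).md one_ne_zero
    have a2 : MD G x := h1.md (by norm_num)
    have u3 := isUnit_iff_ne_zero.2 h3
    have u4 := isUnit_iff_ne_zero.2 h4
    have u5 : IsUnit (A x)ᴴ.det := by rw [Matrix.det_conjTranspose]; exact u4.star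
    rw [th, DM_mul (((an_mc h2 1).mul (h1.mono (by norm_num))).md one_ne_zero)
      ((an_mc h2 1).conjTranspose.md one_ne_zero), DM_mul a1 a2, DM_conjTranspose a1, an_dmb h2,
      Matrix.conjTranspose_zero, Matrix.mul_zero, add_zero, Matrix.mul_inv_rev, Matrix.mul_inv_rev,
      Matrix.mul_assoc, Matrix.mul_nonsing_inv_cancel_left _ _ u5, ← Matrix.mul_assoc,
      Matrix.add_mul, Matrix.mul_nonsing_inv_cancel_right _ _ u3, th, Matrix.mul_assoc (A x)]
  have e2 : ∀ i j, DMb j (th i fun x => A x * G x * (A x)ᴴ) z =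
      A z * DMb j (th i G) z * (A z)⁻¹ := fun i j => by
    have a1 : MC 1 (DM i A) z := (an_mc hA 2).DM (by norm_num)
    have a2 : MC 1 (th i G) z := mc_th hG h0 (by norm_num) i
    have a3 : DMb j (DM i A) z = 0 := by
      rw [← DM_DMb_comm (an_mc hA 2), DM_congr (N := fun _ => 0)
        ((an_ev hA).mono fun y hy => an_dmb hy j), DM_const]
    rw [DMb_congr (e1 i), DMb_mul ((a1.add ((an_mc hA 1).mul a2)).md one_ne_zero)
      (((an_mc hA 1).inv hA0).md one_ne_zero), DMb_inv (an_mc hA 1) hA0,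
      DMb_add (a1.md one_ne_zero) (((an_mc hA 1).mul a2).md one_ne_zero),
      DMb_mul ((an_mc hA 1).md one_ne_zero) (a2.md one_ne_zero), a3, an_dmb hA]
    simp
  have e3 : cu (fun x => A x * G x * (A x)ᴴ) z =
      (A z).map (C : ℂ →+* Po D) * cu G z * ((A z)⁻¹).map (C : ℂ →+* Po D) := by
    refine Matrix.ext fun p q => ?_
    simp only [cu, e2, Matrix.mul_apply, Matrix.of_apply, Matrix.map_apply, Finset.mul_sum,
      Finset.sum_mul, map_sum, map_mul]
    refine sum4 _ _ ?_
    exact fun a _ => Finset.sum_congr rfl fun b _ => Finset.sum_congr rfl fun i _ =>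
      Finset.sum_congr rfl fun j _ => by ring
  have e4 : (A z).map (C : ℂ →+* Po D) * ((A z)⁻¹).map (C : ℂ →+* Po D) = 1 := by
    rw [← Matrix.map_mul, Matrix.mul_nonsing_inv _ (isUnit_iff_ne_zero.2 hA0), Matrix.map_one _
      (map_zero _) (map_one _)]
  rw [chern_eq, chern_eq, e3]
  congr 1
  calc _ = ((A z).map (C : ℂ →+* Po D) * (1 - cu G z) * ((A z)⁻¹).map (C : ℂ →+* Po D)).det := by
        rw [Matrix.mul_sub, Matrix.sub_mul, Matrix.mul_one, e4]
    _ = _ := by
        rw [Matrix.det_mul, Matrix.det_mul, mul_right_comm, ← Matrix.det_mul, e4, Matrix.det_one,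
          one_mul]

theorem jac_an {φ : Cm E → Cm D} {y : Cm E} (h : AnalyticAt ℂ φ y) (p : Fin D) (q : Fin E) :
    AnalyticAt ℂ (fun x => jac φ x p q) y := (QN.jm_holo h.contDiffAt p q).analyticAt

theorem dz_cp {f : Cm D → ℂ} {φ : Cm E → Cm D} {y : Cm E} (hf : DifferentiableAt ℝ f (φ y))
    (h : AnalyticAt ℂ φ y) (i : Fin E) :
    dz i (fun x => f (φ x)) y = ∑ p, dz p f (φ y) * jac φ y p i :=
  QN.dz_comp_F hf h.differentiableAt

theorem dzb_cp {f : Cm D → ℂ} {φ : Cm E → Cm D} {y : Cm E} (hf : DifferentiableAt ℝ f (φ y))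
    (h : AnalyticAt ℂ φ y) (i : Fin E) :
    dzb i (fun x => f (φ x)) y = ∑ p, dzb p f (φ y) * star (jac φ y p i) :=
  QN.dzb_comp_F hf h.differentiableAt

theorem cd_cp {m : WithTop ℕ∞} {V : Type} [NormedAddCommGroup V] [NormedSpace ℝ V] {f : Cm D → V}
    {φ : Cm E → Cm D} {y : Cm E} (hf : ContDiffAt ℝ m f (φ y)) (h : AnalyticAt ℂ φ y) :
    ContDiffAt ℝ m (fun x => f (φ x)) y :=
  hf.comp y ((h.contDiffAt (n := m)).restrict_scalars ℝ)

/-- pull back -/
theorem chern_comp {G : Cm D → Matrix ι ι ℂ} {φ : Cm E → Cm D} {y : Cm E} (h : AnalyticAt ℂ φ y)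
    (hG : MC 2 G (φ y)) (h0 : (G (φ y)).det ≠ 0) (k : ℕ) :
    chern (fun x => G (φ x)) k y = pb (jac φ y) (chern G k (φ y)) := by
  have e1 : ∀ i p q, (fun x => th i (fun x => G (φ x)) x p q) =ᶠ[𝓝 y]
      fun x => ∑ a, jac φ x a i * th a G (φ x) p q := fun i p q => by
    filter_upwards [h.eventually_analyticAt,
      h.continuousAt.eventually (MC.eventually (q := 2) hG)] with x h1 h2
    simp only [th, Matrix.mul_apply, DM_apply, Finset.mul_sum]
    rw [Finset.sum_comm]
    refine Finset.sum_congr rfl fun r _ => ?_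
    rw [dz_cp (f := fun x => G x p r) ((h2 p r).differentiableAt (by norm_num)) h1, Finset.sum_mul]
    exact Finset.sum_congr rfl fun a _ => by ring
  have e2 : ∀ i j p q, DMb j (th i fun x => G (φ x)) y p q =
      ∑ a, ∑ b, DMb b (th a G) (φ y) p q * (jac φ y a i * star (jac φ y b j)) := fun i j p q => by
    have a1 : ∀ a, DifferentiableAt ℝ (fun x => th a G x p q) (φ y) := fun a =>
      (mc_th (m' := 1) hG h0 (by norm_num) a p q).differentiableAt one_ne_zero
    have a2 : ∀ a, DifferentiableAt ℝ (fun x => th a G (φ x) p q) y := fun a =>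
      (cd_cp (mc_th (m' := 1) hG h0 (by norm_num) a p q) h).differentiableAt one_ne_zero
    have a3 : ∀ a, DifferentiableAt ℝ (fun x => jac φ x a i) y := fun a =>
      (jac_an h a i).differentiableAt.restrictScalars ℝ
    rw [DMb_apply, dzb_congr j (e1 i p q), dzb_sum j _ fun a _ => (a3 a).fun_mul (a2 a)]
    refine Finset.sum_congr rfl fun a _ => ?_
    rw [dzb_mul j (a3 a) (a2 a), dzb_of_holo (jac_an h a i).differentiableAt, zero_mul, zero_add,
      dzb_cp (f := fun x => th a G x p q) (a1 a) h, Finset.mul_sum]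
    exact Finset.sum_congr rfl fun b _ => by rw [DMb_apply]; ring
  have e3 : cu (fun x => G (φ x)) y = (cu G (φ y)).map (pb (jac φ y)) := by
    refine Matrix.ext fun p q => ?_
    simp only [cu, e2, Matrix.of_apply, Matrix.map_apply, map_sum, map_mul, pb_X, pb_C,
      Finset.mul_sum, Finset.sum_mul]
    refine sum4 _ _ ?_
    exact fun a _ => Finset.sum_congr rfl fun b _ => Finset.sum_congr rfl fun i _ =>
      Finset.sum_congr rfl fun j _ => by ring
  rw [chern_eq, chern_eq, ← hc_pb, e3, AlgHom.map_det, map_sub, map_one]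
  rfl

theorem pb_Fm (J : Matrix (Fin D) (Fin E) ℂ) (M : Matrix (Fin D) (Fin D) ℂ) :
    pb J (Fm M) = Fm (Jᵀ * M * J.map star) := by
  simp only [Fm, map_sum, map_mul, pb_X, pb_C, Finset.mul_sum, Finset.sum_mul, Matrix.mul_apply,
    Matrix.transpose_apply, Matrix.map_apply]
  rw [Finset.sum_congr rfl fun i _ => Finset.sum_comm, Finset.sum_comm]
  refine Finset.sum_congr rfl fun a _ => ?_
  rw [Finset.sum_congr rfl fun i _ => Finset.sum_comm, Finset.sum_comm]
  refine Finset.sum_congr rfl fun b _ => ?_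
  rw [Finset.sum_comm]
  exact Finset.sum_congr rfl fun i _ => Finset.sum_congr rfl fun j _ => by ring

theorem chern_line {f : Cm D → ℝ} {z : Cm D} (h : ContDiffAt ℝ 2 f z) (h0 : 0 < f z) :
    chern (fun y => !![(f y : ℂ)]) 1 z = -dd (fun y => Real.log (f y)) z := P269CL.c1_eq h h0

theorem dd_exp {u : Cm D → ℝ} {z : Cm D} (h : ContDiffAt ℝ 2 u z) :
    dd u z = -chern (fun y => !![(Real.exp (u y) : ℂ)]) 1 z := by
  rw [chern_line (f := fun y => Real.exp (u y)) h.exp (Real.exp_pos _), neg_neg]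
  simp only [Real.log_exp]

theorem mc_line {m : WithTop ℕ∞} {f : Cm D → ℝ} {z : Cm D} (h : ContDiffAt ℝ m f z) :
    MC m (fun y => !![(f y : ℂ)]) z := fun p q => by
  simpa using contDiffAt_ofReal h

theorem dd_comp {φ : Cm E → Cm D} {y : Cm E} {u : Cm D → ℝ} (h : AnalyticAt ℂ φ y)
    (hu : ContDiffAt ℝ 2 u (φ y)) : dd (fun x => u (φ x)) y = pb (jac φ y) (dd u (φ y)) := by
  rw [dd_exp hu, dd_exp (cd_cp hu h), map_neg, ← chern_comp h (mc_line hu.exp) (by simp)]

theorem Fm_add (M N : Matrix (Fin D) (Fin D) ℂ) : Fm (M + N) = Fm M + Fm N := by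
  simp only [Fm, Matrix.add_apply, map_add, add_mul, Finset.sum_add_distrib]

theorem Fm_sub (M N : Matrix (Fin D) (Fin D) ℂ) : Fm (M - N) = Fm M - Fm N := by
  simp only [Fm, Matrix.sub_apply, map_sub, sub_mul, Finset.sum_sub_distrib]

theorem dd_hol {f : Cm D → ℂ} {z : Cm D} (h : AnalyticAt ℂ f z) (h0 : f z ≠ 0) :
    dd (fun x => Real.log (‖f x‖ ^ 2)) z = 0 := by
  have c : ContDiffAt ℝ 2 (fun x => ‖f x‖ ^ 2) z :=
    ((h.contDiffAt (n := 2)).restrict_scalars ℝ).norm_sq ℝ
  have e := chern_gauge (G := fun _ : Cm D => (!![((1 : ℝ) : ℂ)] : Matrix (Fin 1) (Fin 1) ℂ))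
    (A := fun x => !![f x]) (mc_line (f := fun _ => 1) contDiffAt_const) (by simp)
    (fun p q => by simpa using h) (by simpa using h0) 1
  rw [chern_line (f := fun _ => 1) contDiffAt_const one_pos] at e
  have e2 : (fun x => (!![f x] * !![((1 : ℝ) : ℂ)] * !![f x]ᴴ : Matrix (Fin 1) (Fin 1) ℂ)) =
      fun x => !![((‖f x‖ ^ 2 : ℝ) : ℂ)] := by
    funext x
    ext p q
    fin_cases p; fin_cases q
    simp [Matrix.mul_apply, Complex.mul_conj, Complex.normSq_eq_norm_sq]
  rw [e2, chern_line c (by positivity), neg_inj] at e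
  rw [e, dd, C2.cHess_const]
  simp [Fm]

theorem Gd.pb {φ : Cm E → Cm D} {y : Cm E} {β : Cm D → Po D} (h : AnalyticAt ℂ φ y)
    (hβ : Gd (φ y) β) : Gd y fun x => pb (jac φ x) (β (φ x)) := by
  induction hβ with
  | cst c => simpa only [pb_C] using Gd.cst c
  | add _ _ a b => simpa only [map_add] using a.add b
  | mul _ _ a b => simpa only [map_mul] using a.mul b
  | ch n k G a b =>
    refine (Gd.ch n k (fun x => G (φ x)) (fun p q => cd_cp (a p q) h) b).congr ?_
    have a2 : MC (2 : ℕ) G (φ y) := MC.mono a (WithTop.coe_le_coe.2 le_top)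
    filter_upwards [h.eventually_analyticAt, h.continuousAt.eventually (MC.eventually a2),
      h.continuousAt.eventually (det_ne_zero_eventually (a2.mono (by norm_num)) b)] with x h1 h2 h3
    exact (chern_comp h1 h2 h3 k).symm
  | congr _ e a =>
    refine a.congr ?_
    filter_upwards [h.continuousAt.eventually e] with x hx
    rw [hx]

/-- **Row CHN.** -/
theorem chn : CHN where
  nat φ y G A G' k h hG h0 hA hA0 e := by
    rw [chern_congr e, chern_gauge (G := fun x => G (φ x)) (fun p q => cd_cp (hG p q) h) h0 hA hA0,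
      chern_comp h hG h0]
  line f z := chern_line
  ddn φ y u := dd_comp
  dda u v z hu hv := ⟨by rw [dd, C2.cHess_add hu hv, Fm_add]; rfl,
    by rw [dd, C2.cHess_sub hu hv, Fm_sub]; rfl⟩
  ddc u v z h := by rw [dd, C2.cHess_congr h]; rfl
  ddh f z := dd_hol
  chain φ ψ y h h' := QN.jm_comp h.differentiableAt h'.differentiableAt
  jid y := by
    ext p q
    rw [jac, Matrix.of_apply, P269CL.dz_coord, Matrix.one_apply]
    simp only [eq_comm]
  jc φ ψ y h := QN.jm_congr h
  jan φ y := jac_an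
  gpb φ y β := Gd.pb

end Vale.Agent.P269C
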