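import Vale.Agent.P273.H183.Fam
import Vale.Agent.P272.K.Stmt

/-!
Integrals of polynomials in the classes `λ_k` and `ψ_i` over the moduli stack of stable curves.
-/

set_option autoImplicit false
set_option linter.all false
set_option maxSynthPendingDepth 3

noncomputable section

namespace Vale.Agent.P269C

open Set Filter Asymptotics MeasureTheory MvPolynomial Vale.Agent.P273.H183 Vale.Agent.P272.K
open scoped Topology ContDiff Matrix ComplexOrder

/-- Forms of type `(p, p)` at a point of `ℂ^D`: the variable `(k, l)` is `i dz_k ∧ dz̄_l / 2π`. -/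
abbrev Po (D : ℕ) : Type := MvPolynomial (Fin D × Fin D) ℂ

/-- The density of the part of top degree with respect to Lebesgue measure. -/
def tau {D : ℕ} (P : Po D) : ℂ :=
  (∑ σ : Equiv.Perm (Fin D), (σ.sign : ℂ) * coeff (∑ k, Finsupp.single (k, σ k) 1) P) / Real.pi ^ D

/-- The Chern forms of the metric with Gram matrix `G` in a holomorphic frame. -/
def chern {D : ℕ} {ι : Type} [Fintype ι] [DecidableEq ι] (G : Cm D → Matrix ι ι ℂ) (k : ℕ)
    (z : Cm D) : Po D :=
  homogeneousComponent k (Matrix.det (1 - Matrix.of fun p q => ∑ i, ∑ j, C (dzb j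
    (fun y => ((Matrix.of fun p q => dz i (fun x => G x p q) y) * (G y)⁻¹) p q) z) * X (i, j)))

variable {L L' : Type} {m m' : ℕ}

/-- The neighbourhoods of `p` in its fibre. -/
def nf (C : Fam L m) (p : C.X) : Filter C.X := 𝓝[C.fib (C.π p)] p

/-- `f` is holomorphic at `p` on the fibre. -/
def FH (C : Fam L m) (f : C.X → ℂ) (p : C.X) : Prop := ∃ g, C.hol g p ∧ f =ᶠ[nf C p] g

/-- `z` is a coordinate of the fibre at the (smooth) point `p`. -/
def Co (C : Fam L m) (z : C.X → ℂ) (p : C.X) : Prop := FH C z p ∧ ∃ U ∈ nf C p, InjOn z U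

/-- `df = c dz` at `p` on the fibre. -/
def Dr (C : Fam L m) (f z : C.X → ℂ) (p : C.X) (c : ℂ) : Prop :=
  (fun q => f q - f p - c * (z q - z p)) =o[nf C p] fun q => z q - z p

/-- Differentials: `η z p` is the coefficient of `dz` at `p`. -/
abbrev Df (C : Fam L m) : Type := (C.X → ℂ) → C.X → ℂ

/-- `η` is a section of the dualizing sheaf of the fibre over `b`. -/
def Om (C : Fam L m) (b : Cm m) (η : Df C) : Prop := ∀ p ∈ C.fib b,
  (∀ z w c, Co C z p → Co C w p → Dr C w z p c → η z p = c * η w p) ∧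
  ∀ U x y t, IsChart C.π C.hol U x y t → p ∈ U → ∃ f, FH C f p ∧
    ∀ᶠ q in nf C p, (x q ≠ 0 → η x q * x q = f q) ∧ (y q ≠ 0 → η y q * y q = -f q)

/-- `e` is a basis of the sections of the dualizing sheaf: the fibre has genus `g`. -/
def Bas (C : Fam L m) (b : Cm m) {g : ℕ} (e : Fin g → Df C) : Prop := (∀ j, Om C b (e j)) ∧
  ∀ η, Om C b η → ∃! c : Fin g → ℂ, ∀ p ∈ C.fib b, ∀ z, Co C z p → η z p = ∑ j, c j * e j z p

/-- `e` is a holomorphic frame of the Hodge bundle near `b`. -/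
def Fr (C : Fam L m) (b : Cm m) {g : ℕ} (e : Fin g → Df C) : Prop := ∀ᶠ a in 𝓝 b, Bas C a e ∧
  ∀ j, ∀ p ∈ C.fib a, ∀ z, C.hol z p → Co C z p → C.hol (e j z) p

/-- Isomorphisms of fibres, compatible with the marked points. -/
def Iso (C : Fam L m) (b : Cm m) (C' : Fam L m') (b' : Cm m') : Set (C.fib b → C'.X) :=
  {Φ | Continuous Φ ∧ Function.Injective Φ ∧ range Φ = C'.fib b' ∧
    (∀ i (p : C.fib b), p.1 = C.s i b → Φ p = C'.s i b') ∧
    ∀ (p : C.fib b) f f', (∀ q : C.fib b, f q = f' (Φ q)) → (FH C f p ↔ FH C' f' (Φ p))}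

/-- The family without its marked points. -/
def fg (C : Fam L m) : Fam Empty m := ⟨C.B, C.X, C.π, C.hol, Empty.elim⟩

/-- `C` is a Kuranishi family at all points of its base: near every point of the base of a family
of stable curves the isomorphisms with the fibres of `C` over a compact set are given by finitely
many disjoint morphisms of families. The nodes are smoothed to first order. -/
def Kur (C : Fam L m) : Prop := C.IsStable ∧
  (∀ U x y t, IsChart C.π C.hol U x y t → ∀ p ∈ U, x p = 0 → y p = 0 →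
    fderiv ℂ t (C.π p) ≠ 0) ∧
  ∀ m' (C' : Fam L m'), C'.IsStable → ∀ b ∈ C'.B, ∀ K ⊆ C.B, IsCompact K →
    ∃ (k : ℕ) (φ : Fin k → Cm m' → Cm m) (Φ : Fin k → C'.X → C.X), ∀ᶠ a in 𝓝 b,
      (∀ j, φ j a ∈ C.B ∧ AnalyticAt ℂ (φ j) a ∧
        (fun p : C'.fib a => Φ j p) ∈ Iso C' a C (φ j a) ∧ ∀ p ∈ C'.fib a,
          ContinuousAt (Φ j) p ∧ ∀ f, C.hol f (Φ j p) → C'.hol (fun q => f (Φ j q)) p) ∧
      Function.Injective (fun j (p : C'.fib a) => Φ j p) ∧
      ∀ x ∈ K, ∀ Ψ ∈ Iso C' a C x, ∃ j, Ψ = fun p : C'.fib a => Φ j p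

/-- `h m C b i z = |dz|²` is a smooth Hermitian metric on the cotangent lines at the marked points,
on the stack of stable curves. -/
def IsPsi (h : ∀ m (C : Fam L m), Cm m → L → (C.X → ℂ) → ℝ) : Prop :=
  (∀ m m' (C : Fam L m) (C' : Fam L m') b b', ∀ Φ ∈ Iso C b C' b', ∀ i z f z' c, (∀ j, C.π (C.s j b) = b) →
    Co C z (C.s i b) → Co C' z' (C'.s i b') → (∀ q : C.fib b, f q = z' (Φ q)) →
      Dr C z f (C.s i b) c → h m C b i z = ‖c‖ ^ 2 * h m' C' b' i z') ∧
  ∀ m (C : Fam L m), C.IsStable → ∀ b ∈ C.B, ∀ i z, C.hol z (C.s i b) → Co C z (C.s i b) →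
    0 < h m C b i z ∧ ContDiffAt ℝ ∞ (fun a => h m C a i z) b

/-- `G m C b e` is the Gram matrix of the basis `e` for a smooth Hermitian metric on the Hodge
bundle of the stack of stable curves of genus `g` which does not depend on the marked points. -/
def IsLam {g : ℕ}
    (G : ∀ m (C : Fam Empty m), Cm m → (Fin g → Df C) → Matrix (Fin g) (Fin g) ℂ) : Prop :=
  (∀ m m' (C : Fam Empty m) (C' : Fam Empty m') b b', ∀ Φ ∈ Iso C b C' b',
    ∀ e e' (A : Matrix (Fin g) (Fin g) ℂ), Bas C b e → Bas C' b' e' →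
    (∀ (p : C.fib b) z z', Co C z p → (∀ q : C.fib b, z q = z' (Φ q)) →
      ∀ j, e j z p = ∑ k, A j k * e' k z' (Φ p)) → G m C b e = A * G m' C' b' e' * Aᴴ) ∧
  ∀ (L : Type) [Finite L] m (C : Fam L m), C.IsStable → ∀ b ∈ C.B, ∀ e : Fin g → Df C, Fr C b e →
    (G m (fg C) b e).PosDef ∧ ∀ p q, ContDiffAt ℝ ∞ (fun a => G m (fg C) a e p q) b

/-- An orbifold atlas (charts of dimension `D`) of the stack of stable curves of genus `g` with
marked points indexed by `L`, with a partition of unity. -/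
structure Atlas (g D : ℕ) (L : Type) where
  /-- the number of charts -/
  k : ℕ
  /-- the charts -/
  C : Fin k → Fam L D
  /-- the partition of unity -/
  ρ : Fin k → Cm D → ℝ
  kur : ∀ a, Kur (C a)
  fr : ∀ a, ∀ b ∈ (C a).B, ∃ e : Fin g → Df (C a), Fr (C a) b e
  sm : ∀ a, ContDiff ℝ ∞ (ρ a) ∧ IsCompact (tsupport (ρ a)) ∧ tsupport (ρ a) ⊆ (C a).B
  one : ∀ m (C' : Fam L m), C'.IsStable → ∀ b ∈ C'.B, (∃ e : Fin g → Df C', Bas C' b e) →
    ∑ a, ∑ᶠ x, ((Iso C' b (C a) x).ncard : ℝ) * ρ a x = 1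

/-- The integral of a form over the stack. -/
def Atlas.int {g D : ℕ} (A : Atlas g D L) (β : Fin A.k → Cm D → Po D) : ℂ :=
  ∑ a, ∫ b, A.ρ a b * tau (β a b)

/-- The form `λ_k` on the base of a family. -/
def lam {g : ℕ} (G : ∀ m (C : Fam Empty m), Cm m → (Fin g → Df C) → Matrix (Fin g) (Fin g) ℂ)
    (C : Fam L m) (b : Cm m) (k : ℕ) : Po m :=
  chern (fun a => G m (fg C) a (Classical.epsilon (Fr C b))) k b

/-- The form `ψ_i` on the base of a family. -/
def psi (h : ∀ m (C : Fam L m), Cm m → L → (C.X → ℂ) → ℝ) (C : Fam L m) (b : Cm m) (i : L) :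
    Po m := chern (fun a => !![(h m C a i
      (Classical.epsilon fun z => C.hol z (C.s i b) ∧ Co C z (C.s i b)) : ℂ)]) 1 b

/-- Atlases and metrics for all stable types. -/
structure Md where
  /-- the metrics on the Hodge bundles -/
  G : ∀ g m (C : Fam Empty m), Cm m → (Fin g → Df C) → Matrix (Fin g) (Fin g) ℂ
  /-- the metrics on the cotangent lines -/
  h : ∀ n m (C : Fam (Fin n) m), Cm m → Fin n → (C.X → ℂ) → ℝ
  /-- the atlases -/
  A : ∀ g n, 2 < 2 * g + n → Atlas g (3 * g + n - 3) (Fin n)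
  hG : ∀ g, IsLam (G g)
  hh : ∀ n, IsPsi (h n)

/-- The integral of `P(λ) ∏ ψ_i ^ m_i` (the variable `k` of `P` is `λ_k`) over the stack of stable
curves of genus `g` with as many marked points as the list of the `m_i` has entries. -/
def Md.I (M : Md) (g : ℕ) (ms : List ℕ) (P : MvPolynomial ℕ ℂ) : ℂ :=
  if s : 2 < 2 * g + ms.length then (M.A g _ s).int fun a b =>
    aeval (lam (M.G g) ((M.A g _ s).C a) b) P * ∏ i, psi (M.h _) ((M.A g _ s).C a) b i ^ ms.get i
  else 0

end Vale.Agent.P269C
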