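import Vale.Agent.P269C.Spec2
import Vale.Agent.P269C.Chn
import Vale.Agent.P269CX.Tel

/-!
Block C of P269: natural forms, relabelling, and the final assembly.
-/

set_option autoImplicit false
set_option linter.all false
set_option maxSynthPendingDepth 3

noncomputable section

namespace Vale.Agent.P269C

open Set Filter MeasureTheory MvPolynomial Vale.Agent.P273.H183 Vale.Agent.P272.K
open scoped Topology ContDiff Matrix

variable {L L' : Type} {m m' g D : ℕ}

theorem Mor.fg (k1 : K1) {C' : Fam L m'} {C : Fam L m} {φ : Cm m' → Cm m} {Φ : C'.X → C.X}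
    {a : Cm m'} (h : Mor C' C φ Φ a) : Mor (fg C') (fg C) φ Φ a :=
  ⟨h.1, h.2.1, (k1.fg.1 h.2.2.1).1, h.2.2.2⟩

theorem mor_self (k1 : K1) {C : Fam L m} {a : Cm m} (h : a ∈ C.B) : Mor C C (fun x => x) id a :=
  ⟨h, analyticAt_id, k1.refl C a, fun _ _ => ⟨continuousAt_id, fun _ h => h⟩⟩

theorem NatB.cont (hT : TAU) (hG : GDC) {A : Atlas g D L} {β : Fin A.k → Cm D → Po D}
    (h : NatB A β) (a : Fin A.k) : Continuous fun b => (A.ρ a b : ℂ) * tau (β a b) := by
  refine continuous_iff_continuousAt.2 fun b => ?_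
  by_cases hb : b ∈ tsupport (A.ρ a)
  · exact (Complex.continuous_ofReal.comp (A.sm a).1.continuous).continuousAt.mul
      (hT.sm _ b ∞ (hG D b _ (h.gd a b ((A.sm a).2.2 hb))).sm).continuousAt
  · refine (continuousAt_const (y := 0)).congr ?_
    filter_upwards [notMem_tsupport_iff_eventuallyEq.1 hb] with x hx
    rw [hx]; simp

theorem NatB.integ (hT : TAU) (hG : GDC) {A : Atlas g D L} {β : Fin A.k → Cm D → Po D}
    (h : NatB A β) (a : Fin A.k) : Integrable fun b => (A.ρ a b : ℂ) * tau (β a b) :=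
  (h.cont hT hG a).integrable_of_hasCompactSupport (HasCompactSupport.intro (A.sm a).2.1
    fun x hx => by rw [image_eq_zero_of_notMem_tsupport hx]; simp)

theorem nb_cst (A : Atlas g D L) (c : ℂ) : NatB A fun _ _ => C c :=
  ⟨fun _ _ _ => Gd.cst c, fun _ _ _ _ _ _ _ _ => (pb_C _ c).symm⟩

theorem nb_add {A : Atlas g D L} {β γ : Fin A.k → Cm D → Po D} (h : NatB A β) (h' : NatB A γ) :
    NatB A (β + γ) :=
  ⟨fun a y hy => (h.gd a y hy).add (h'.gd a y hy), fun a b φ Φ y h1 h2 h3 => by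
    simp only [Pi.add_apply, map_add, ← h.nat a b φ Φ y h1 h2 h3, ← h'.nat a b φ Φ y h1 h2 h3]⟩

theorem nb_mul {A : Atlas g D L} {β γ : Fin A.k → Cm D → Po D} (h : NatB A β) (h' : NatB A γ) :
    NatB A (β * γ) :=
  ⟨fun a y hy => (h.gd a y hy).mul (h'.gd a y hy), fun a b φ Φ y h1 h2 h3 => by
    simp only [Pi.mul_apply, map_mul, ← h.nat a b φ Φ y h1 h2 h3, ← h'.nat a b φ Φ y h1 h2 h3]⟩

/-- The natural forms as a submonoid. -/
def nbM (A : Atlas g D L) : Submonoid (Fin A.k → Cm D → Po D) where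
  carrier := {β | NatB A β}
  mul_mem' := nb_mul
  one_mem' := nb_cst A 1

/-- **Row NB.** -/
theorem nb (hT : TAU) (hG : GDC) (k1 : K1) (hP : PSI) (hL : LAM) : NB := by
  have e1 : ∀ {g D : ℕ} {L : Type} (A : Atlas g D L) {h : Hm L}, IsPsi h → ∀ i,
      NatB A fun a b => psi h (A.C a) b i := fun A h hh i =>
    ⟨fun a y hy => hP.gd hh (A.kur a).1 y hy i, fun a b φ Φ y h1 _ h3 =>
      hP.nat hh (A.kur b).1 (A.kur a).1 y h1 h3 i⟩
  have e2 : ∀ {g D : ℕ} {L : Type} [Finite L] (A : Atlas g D L) {G : Gm g}, IsLam G →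
      ∀ P : MvPolynomial ℕ ℂ, NatB A fun a b => aeval (lam G (A.C a) b) P := by
    intro g D L _ A G hG P
    induction P using MvPolynomial.induction_on with
    | C c => simpa only [aeval_C, algebraMap_eq] using nb_cst A c
    | add P Q hP hQ => simp only [map_add]; exact nb_add hP hQ
    | mul_X P k hP =>
      simp only [map_mul, aeval_X]
      refine nb_mul hP ⟨fun a y hy => hL.gd hG (A.kur a).1 y hy (A.fr a y hy) k,
        fun a b φ Φ y h1 h2 h3 => ?_⟩
      have := hL.nat hG (A.kur a).1 (A.kur a).1 (A.kur b).1 y h1 h2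
        (((A.kur a).1.1.eventually_mem h1).mono fun x hx => (mor_self k1 hx).fg k1)
        (h3.mono fun x hx => hx.fg k1) (A.fr a y h1) (A.fr b _ h3.self_of_nhds.1) k
      rwa [chn.jid, hT.one] at this
  refine ⟨nb_cst, nb_add, nb_mul, e1, e2, fun A G h hG hh P n => ?_, fun {_ _ _ A β γ} h h' => ?_,
    fun {_ _ _ A β γ} h => ?_⟩
  · have := (nbM A).mul_mem (e2 A hG P) ((nbM A).prod_mem (t := Finset.univ)
      fun i _ => (nbM A).pow_mem (e1 A hh i) (n i))
    convert this using 1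
    refine iff_of_eq (congrArg (NatB A) (funext₂ fun a b => ?_))
    simp only [fm, Pi.mul_apply, Finset.prod_apply, Pi.pow_apply]
  · simp only [Atlas.int, Pi.add_apply, hT.add, mul_add, ← Finset.sum_add_distrib]
    exact Finset.sum_congr rfl fun a _ => integral_add (h.integ hT hG a) (h'.integ hT hG a)
  · refine Finset.sum_congr rfl fun a _ => integral_congr_ae (Eventually.of_forall fun y => ?_)
    by_cases hy : y ∈ tsupport (A.ρ a)
    · beta_reduce
      rw [h a y ((A.sm a).2.2 hy)]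
    · simp [image_eq_zero_of_notMem_tsupport hy]

/-! ### relabelling -/

theorem st_sub (e : L ≃ L') {C : Fam L' m} (h : C.IsStable) : (sub e C).IsStable := by
  obtain ⟨h1, h2, h3, h4, h5, h6⟩ := h
  refine ⟨h1, h2, h3, h4, h5, fun b hb => ⟨(h6 b hb).1, fun i => ?_, fun V hV => ?_⟩⟩
  · obtain ⟨g1, g2, g3, g4, g5⟩ := (h6 b hb).2.1 (e i)
    exact ⟨g1, g2, g3, fun j hj => e.injective (g4 (e j) hj), g5⟩
  · refine (h6 b hb).2.2 V ⟨hV.1, hV.2.1, fun i f hf => ?_⟩
    obtain ⟨j, rfl⟩ := e.surjective i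
    exact hV.2.2 j f hf

theorem iso_sub (e : L ≃ L') (C' : Fam L m') (C : Fam L' m) (a : Cm m') (x : Cm m) :
    Iso (sub e.symm C') a C x = Iso C' a (sub e C) x := by
  ext Φ
  refine and_congr Iff.rfl (and_congr Iff.rfl (and_congr Iff.rfl (and_congr ?_ Iff.rfl)))
  refine ⟨fun h i p hp => h (e i) p (hp.trans (congrArg (C'.s · a) (e.symm_apply_apply i).symm)),
    fun h i p hp => (h (e.symm i) p hp).trans (congrArg (C.s · x) (e.apply_symm_apply i))⟩

theorem iso_sub' (e : L ≃ L') {C' : Fam L' m'} {C : Fam L' m} {a : Cm m'} {x : Cm m}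
    {Φ : C'.fib a → C.X} (h : Φ ∈ Iso C' a C x) : Φ ∈ Iso (sub e C') a (sub e C) x :=
  ⟨h.1, h.2.1, h.2.2.1, fun i => h.2.2.2.1 (e i), h.2.2.2.2⟩

/-- Relabelled atlas. -/
def Atlas.rel (e : L ≃ L') (A : Atlas g D L') : Atlas g D L where
  k := A.k
  C a := sub e (A.C a)
  ρ := A.ρ
  kur a := ⟨st_sub e (A.kur a).1, (A.kur a).2.1, fun m' C' h b hb K hK hK' => by
    obtain ⟨k, φ, Φ, H⟩ := (A.kur a).2.2 m' (sub e.symm C') (st_sub e.symm h) b hb K hK hK'
    refine ⟨k, φ, Φ, ?_⟩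
    simp only [iso_sub] at H
    exact H⟩
  fr := A.fr
  sm := A.sm
  one m C' h b hb he := by
    have := A.one m (sub e.symm C') (st_sub e.symm h) b hb he
    simp only [iso_sub] at this
    exact this

/-- Relabelled metrics. -/
def hrel (e : L ≃ L') (h : Hm L') : Hm L := fun m C b i z => h m (sub e.symm C) b (e i) z

theorem isPsi_rel (e : L ≃ L') {h : Hm L'} (hh : IsPsi h) : IsPsi (hrel e h) := by
  have s : ∀ {m} (C : Fam L m) i b, (sub e.symm C).s (e i) b = C.s i b := fun C i b =>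
    congrArg (C.s · b) (e.symm_apply_apply i)
  refine ⟨fun m m' C C' b b' Φ hΦ i z f z' c h1 h2 h3 h4 h5 => ?_,
    fun m C hC b hb i z h1 h2 => ?_⟩
  · exact hh.1 m m' (sub e.symm C) (sub e.symm C') b b' Φ (iso_sub' e.symm hΦ) (e i) z f z' c
      (fun j => h1 _) (by rw [s]; exact h2) (by rw [s]; exact h3) h4 (by rw [s]; exact h5)
  · exact hh.2 m (sub e.symm C) (st_sub e.symm hC) b hb (e i) z (by rw [s]; exact h1)
      (by rw [s]; exact h2)

theorem h_sub (h : Hm L) (C : Fam L m) {f : L → L} (hf : f = id) (a : Cm m) (i : L)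
    (z : C.X → ℂ) : h m (sub f C) a i z = h m C a i z := by
  subst hf; rfl

theorem psi_rel (e : L ≃ L') (h : Hm L') (C : Fam L' m) (b : Cm m) (i : L) :
    psi (hrel e h) (sub e C) b i = psi h C b (e i) := by
  have := h_sub h C (f := fun i => e (e.symm i)) (funext e.apply_symm_apply)
  unfold psi
  congr 1
  funext a
  exact congrArg (fun t : ℝ => !![(t : ℂ)]) (this a _ _)

theorem iv_rel [Fintype L] [Fintype L'] (e : L ≃ L') (A : Atlas g D L') (G : Gm g) (h : Hm L')
    (P : MvPolynomial ℕ ℂ) (n : L' → ℕ) :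
    (A.rel e).iv G (hrel e h) P (fun i => n (e i)) = A.iv G h P n := by
  refine congrArg A.int (funext₂ fun a b => congrArg (_ * ·) ?_)
  rw [← e.prod_comp]
  exact Finset.prod_congr rfl fun i _ => congrArg (· ^ _) (psi_rel e h _ b i)

theorem perm_equiv {α : Type} {l l' : List α} (h : l.Perm l') :
    ∃ e : Fin l.length ≃ Fin l'.length, ∀ i, l'.get (e i) = l.get i := by
  induction h with
  | nil => exact ⟨Equiv.refl _, fun _ => rfl⟩
  | cons a _ ih =>
    obtain ⟨e, he⟩ := ih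
    refine ⟨(finSuccEquiv _).trans (e.optionCongr.trans (finSuccEquiv _).symm), fun i => ?_⟩
    refine Fin.cases ?_ (fun j => ?_) i
    · simp
    · simpa using he j
  | swap a b l =>
    refine ⟨Equiv.swap (0 : Fin (l.length + 2)) 1, fun i => ?_⟩
    refine Fin.cases ?_ (fun j => Fin.cases ?_ (fun k => ?_) j) i
    · simp
    · simp
    · rw [Equiv.swap_apply_of_ne_of_ne (Fin.succ_ne_zero _)
        fun h => Fin.succ_ne_zero _ (Fin.succ_injective _ (h.trans Fin.succ_zero_eq_one.symm))]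
      rfl
  | trans _ _ ih ih' =>
    obtain ⟨e, he⟩ := ih
    obtain ⟨e', he'⟩ := ih'
    exact ⟨e.trans e', fun i => (he' _).trans (he i)⟩

theorem J_iv (M : Md) (g n : ℕ) (s : 2 < 2 * g + n) (u : Fin n → ℕ) (P : MvPolynomial ℕ ℂ) :
    P269CX.J M g n s u P = (M.A g n s).iv (M.G g) (M.h n) P u := rfl

theorem cons_opt {n : ℕ} (c : ℕ) (u : Fin n → ℕ) :
    (fun o => (Fin.cons c u : Fin (n + 1) → ℕ) ((finSuccEquiv n).symm o)) =
      fun o : Option (Fin n) => o.elim c u := by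
  funext o
  cases o <;> simp

/-- **Block C.** -/
theorem modOK (hN : NB) (hI : IND) (hS : STR) (hD : DIL) (h03 : V03) (h11 : V11) (M : Md) :
    P269A.ModOK M.I where
  add g ms P Q s := by
    rw [P269CX.I_eq M g s rfl, P269CX.I_eq M g s rfl, P269CX.I_eq M g s rfl, J_iv, J_iv, J_iv,
      Atlas.iv, Atlas.iv, Atlas.iv,
      ← hN.iadd (hN.fm _ (M.hG g) (M.hh _) P _) (hN.fm _ (M.hG g) (M.hh _) Q _)]
    refine congrArg _ (funext₂ fun a b => ?_)
    simp only [fm, map_add, add_mul, Pi.add_apply]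
  smul g ms c P _ := P269CV.I_smul M g ms c P
  perm g ms ms' P s h := by
    obtain ⟨e, he⟩ := perm_equiv h
    have key : ∀ (n D' : ℕ) (e : Fin ms.length ≃ Fin n) (A' : Atlas g D' (Fin n)) (u : Fin n → ℕ),
        D' = 3 * g + ms.length - 3 → (∀ i, u (e i) = ms.get i) →
        (M.A g _ s).iv (M.G g) (M.h _) P ms.get = A'.iv (M.G g) (M.h n) P u := by
      rintro n _ e A' u rfl hu
      rw [← iv_rel e A', funext hu]
      exact hI _ _ _ _ _ _ _ _ (M.hG g) (M.hh _) (isPsi_rel e (M.hh n)) P _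
    rw [P269CX.I_eq M g s rfl, P269CX.I_eq M g (h.length_eq ▸ s) rfl]
    exact key _ _ e _ _ (by rw [h.length_eq]) he
  string := by
    refine P269CX.string_of M fun g n s s' u P => ?_
    have key : ∀ (D' : ℕ) (A' : Atlas g D' (Option (Fin n))) (h' : Hm (Option (Fin n))),
        D' = 3 * g + n - 3 + 1 → IsPsi h' → A'.iv (M.G g) h' P (fun o => o.elim 0 u) =
          ∑ i, if u i = 0 then 0 else
            (M.A g n s).iv (M.G g) (M.h n) P (Function.update u i (u i - 1)) := by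
      rintro _ A' h' rfl hh
      rw [hS g _ _ (M.A g n s) A' _ _ h' (M.hG g) (M.hh n) hh (by simpa using s), Finset.sum_filter]
      refine Finset.sum_congr rfl fun i _ => ?_
      rw [ite_not]
      congr
      exact Subsingleton.elim _ _
    rw [J_iv, ← iv_rel (finSuccEquiv n).symm, cons_opt]
    exact key _ _ _ (by omega) (isPsi_rel _ (M.hh _))
  dilaton := by
    refine P269CX.dilaton_of M fun n s s' u => ?_
    have key : ∀ (D' : ℕ) (A' : Atlas 1 D' (Option (Fin n))) (h' : Hm (Option (Fin n))),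
        D' = 3 * 1 + n - 3 + 1 → IsPsi h' → A'.iv (M.G 1) h' 1 (fun o => o.elim 1 u) =
          n * (M.A 1 n s).iv (M.G 1) (M.h n) 1 u := by
      rintro _ A' h' rfl hh
      rw [hD _ _ (M.A 1 n s) A' _ _ h' (M.hG 1) (M.hh n) hh (by simp; omega), Fintype.card_fin]
    rw [J_iv, ← iv_rel (finSuccEquiv n).symm, cons_opt]
    exact key _ _ _ (by omega) (isPsi_rel _ (M.hh _))
  v03 := by
    rw [P269CX.I_eq M 0 (n := 3) (by norm_num) rfl, ← h03 (M.A 0 3 (by norm_num))]
    refine congrArg (M.A 0 3 _).int (funext₂ fun a b => ?_)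
    simp [Fin.prod_univ_succ]
  v11 := by
    rw [P269CX.I_eq M 1 (n := 1) (by norm_num) rfl,
      ← (h11 (M.A 1 1 (by norm_num)) _ _ (M.hG 1) (M.hh 1)).1]
    refine congrArg (M.A 1 1 _).int (funext₂ fun a b => ?_)
    simp
  l11 := by
    rw [P269CX.I_eq M 1 (n := 1) (by norm_num) rfl,
      ← (h11 (M.A 1 1 (by norm_num)) _ _ (M.hG 1) (M.hh 1)).2]
    refine congrArg (M.A 1 1 _).int (funext₂ fun a b => ?_)
    simp
  degree g ms P w s := P269CV.I_degree M g ms P w s

end Vale.Agent.P269C
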