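import Vale.Agent.P269C.Node
import Vale.Agent.P269CV.K2
import Vale.Agent.P273.H949.BubInh

/-!
P269, block C: the stabilised family when the extra mark passes through a marked point.
-/

set_option autoImplicit false
set_option linter.all false
set_option maxSynthPendingDepth 3

noncomputable section

namespace Vale.Agent.P269C

open Set Filter Topology Vale.Agent.P273.H183 Vale.Agent.P272.K Vale.Agent.P269CT
open Vale.Agent.P273.H948 Vale.Agent.P273.H949 Vale.Agent.P273.H469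

variable {L L' : Type} {m k : ℕ}

/-- A holomorphic fibre coordinate is a coordinate on an open set. -/
theorem ex_coord {C : Fam L m} (hC : C.IsStable) {z : C.X → ℂ} {p : C.X} (hz : C.hol z p)
    (hco : Co C z p) : ∃ U, p ∈ U ∧ IsCoord C.π (fun p f => C.hol f p) U z ∧
      ∀ q ∈ U, C.hol z q ∧ Co C z q := by
  obtain ⟨τ, hτ⟩ := P269CV.co_par2 hC hz hco
  obtain ⟨U, h1, hU, hp⟩ := mem_nhds_iff.1 ((hτ.ev hC hz).and (hτ.co hC hz))
  have hc : ∀ q ∈ U, ContinuousAt (fun x => (C.π x, z x)) q := fun q hq =>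
    (cont_π hC).continuousAt.prodMk (P269CV.hol_cont hC (h1 hq).1.1)
  refine ⟨U, hp, ⟨hU, fun q hq q' hq' e => ?_, fun q hq => le_antisymm (hc q hq) ?_,
    fun q hq g => ⟨fun hg => ⟨_, (h1 hq).1.2.an g hg, ?_⟩, ?_⟩⟩, fun q hq => (h1 hq).2⟩
  · rw [← (h1 hq).1.2.left.self_of_nhds, ← (h1 hq').1.2.left.self_of_nhds]
    exact congrArg τ e
  · intro V hV
    filter_upwards [(h1 hq).1.2.tend (Filter.mem_map.1 hV), (h1 hq).1.2.right] with s a1 a2
    have a3 : (C.π (τ s), z (τ s)) ∈ V := a1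
    rwa [a2.1, a2.2] at a3
  · filter_upwards [(h1 hq).1.2.left] with x hx
    exact (congrArg g hx).symm
  · rintro ⟨F, hF, e⟩
    refine P269CK.hol_congr (P269CK.chd hC) (P269CK.hol_an (P269CK.chd hC) (h1 hq).1.1 (h1 hq).1.1
      (F := fun x => F (x.1, x.2.1)) ?_) e
    exact AnalyticAt.comp_of_eq (g := F) (f := fun x : Amb m => (x.1, x.2.1)) hF
      ((an_b _).prod (an_u _)) rfl

/-- **The stabilised family at a marked point.** -/
theorem stb_mark [Finite L] {C : Fam L m} {σ : Cm k → C.X} {y₀ : Cm k} {i : L} {z : C.X → ℂ}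
    (hC : C.IsStable) (hs : ∀ᶠ y in 𝓝 y₀, HolAt C σ y) (h0 : σ y₀ = C.s i (C.π (σ y₀)))
    (hz : C.hol z (σ y₀)) (hco : Co C z (σ y₀)) :
    ∃ (E : Fam (Option L) k) (Ψ : E.X → C.X) (a : E.X → ℂ), E.IsStable ∧ y₀ ∈ E.B ∧
      Continuous Ψ ∧ (∀ p, C.π (Ψ p) = C.π (σ (E.π p))) ∧
      (∀ p f, C.hol f (Ψ p) → E.hol (fun q => f (Ψ q)) p) ∧ ∀ y ∈ E.B,
      HolAt C σ y ∧ (∀ o, o = none ∨ o = some i →
        C.hol z (mk C (σ y) o) ∧ Co C z (mk C (σ y) o)) ∧
      (∀ o, Ψ (E.s o y) = mk C (σ y) o) ∧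
      (Gen C (σ y) → FB E y C (C.π (σ y)) Ψ) ∧
      (Gen C (σ y) → Mor (fg E) (fg C) (fun y => C.π (σ y)) Ψ y) ∧
      (∀ j, j ≠ i → ∀ w, C.hol w (C.s j (C.π (σ y))) → Co C w (C.s j (C.π (σ y))) →
        Co E (fun q => w (Ψ q)) (E.s (some j) y)) ∧
      ∀ o, o = none ∨ o = some i → E.hol a (E.s o y) ∧ Co E a (E.s o y) ∧
        ∀ᶠ q in 𝓝 (E.s o y), z (Ψ q) - z (C.s i (C.π (σ (E.π q)))) =
          (z (σ (E.π q)) - z (C.s i (C.π (σ (E.π q))))) * a q := by
  classical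
  obtain ⟨U₀, hp₀, co₀, hU₀⟩ := ex_coord hC hz hco
  obtain ⟨U, u, v, hp, hUU, hm, eu, -⟩ := co₀.model hp₀
  have hu0 : ∀ q ∈ U, u q ≠ 0 := fun q hq => left_ne_zero_of_mul_eq_one (hm.eqn q hq)
  have hc := hs.self_of_nhds.1
  have hci := (hs.self_of_nhds.mk hC (some i)).1
  have hc1 : ∀ᶠ y in 𝓝 y₀, σ y ∈ U := hc (hm.isOpen.mem_nhds hp)
  have hc2 : ∀ᶠ y in 𝓝 y₀, C.s i (C.π (σ y)) ∈ U :=
    hci (hm.isOpen.mem_nhds (show C.s i (C.π (σ y₀)) ∈ U from h0 ▸ hp))
  have hc3 : ∀ᶠ y in 𝓝 y₀, ∀ j, j ≠ i → C.s j (C.π (σ y)) ≠ σ y := by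
    refine eventually_all.2 fun j => ?_
    by_cases hj : j = i
    · exact Eventually.of_forall fun _ h => absurd hj h
    · exact (hc.eventually (ev_ne_s hC (i := j) fun e =>
        hj (s_inj hC (hC.2.2.1 _) (e.trans h0)))).mono fun _ h _ => h
  obtain ⟨W, hW1, hW, hy₀⟩ := mem_nhds_iff.1 (hs.and (hc1.and (hc2.and hc3)))
  have hσ : ∀ y ∈ W, HolAt C σ y := fun y hy => (hW1 hy).1
  have hσU : ∀ y ∈ W, σ y ∈ U := fun y hy => (hW1 hy).2.1
  have hiU : ∀ y ∈ W, C.s i (C.π (σ y)) ∈ U := fun y hy => (hW1 hy).2.2.1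
  have hσs : ∀ y ∈ W, ∀ j, j ≠ i → C.s j (C.π (σ y)) ≠ σ y := fun y hy => (hW1 hy).2.2.2
  have h := pd_of hC hW hσ
  have hne := tot_ne C σ ⟨y₀, hy₀⟩
  have a₀ : ∀ y ∈ W, AnalyticAt ℂ (fun a => u (σ a)) y :=
    fun y hy => (hσ y hy).2 _ (hm.hol_u (hσU y hy))
  have a₁ : ∀ y ∈ W, AnalyticAt ℂ (fun a => u (C.s i (C.π (σ a)))) y :=
    fun y hy => ((hσ y hy).mk hC (some i)).2 _ (hm.hol_u (hiU y hy))
  have co := (coord_u (tot_model h.op h.an hm)).shift (f := fun a => u (C.s i (C.π (σ a))))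
    fun q _ => a₁ _ q.2.1
  have hπs : ∀ y j, C.π (C.s j (C.π (σ y))) = C.π (σ y) := fun y j => π_s hC (hC.2.2.1 _) j
  let D : BubData h.S :=
    { U := {q | q.1.2 ∈ U ∧ u q.1.2 ≠ 0}
      ξ := fun q => u q.1.2 - u (C.s i (C.π (σ q.1.1)))
      t := fun y => u (σ y) - u (C.s i (C.π (σ y)))
      co := co
      an := fun q _ => (a₀ _ q.2.1).sub (a₁ _ q.2.1)
      cl := closed_bub (S := h.S) (t := fun y => u (σ y) - u (C.s i (C.π (σ y)))) co
        (fun q => ((a₀ _ q.2.1).sub (a₁ _ q.2.1)).continuousAt) fun q _ =>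
          ⟨⟨(q.1.1, C.s i (C.π (σ q.1.1))), q.2.1, hπs _ i⟩,
            ⟨hiU _ q.2.1, hu0 _ (hiU _ q.2.1)⟩, rfl, sub_self _⟩ }
  let P : Option L → Cm k → h.S.X := fun o y => tPt hne y (mk C (σ y) o)
  have hP : ∀ o, IsSec h.S W (P o) :=
    fun o => h.sec hne fun y hy => ⟨(hσ y hy).mk hC o, π_mk hC _ o⟩
  have eP : ∀ o, ∀ y ∈ W, (P o y).1 = (y, mk C (σ y) o) := fun o y hy => tPt_val hy (π_mk hC _ o)
  have eP2 : ∀ o, ∀ y ∈ W, (P o y).1.2 = mk C (σ y) o := fun o y hy => congrArg Prod.snd (eP o y hy)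
  have hinj : ∀ p ∈ U, ∀ q ∈ U, C.π p = C.π q → u p = u q → p = q := fun p hp q hq e1 e2 =>
    (coord_u hm).inj ⟨hp, hu0 p hp⟩ ⟨hq, hu0 q hq⟩ (Prod.ext e1 e2)
  have hZ : ∀ q ∈ D.Z, q.1.2 = C.s i (C.π (σ q.1.1)) ∧ σ q.1.1 = C.s i (C.π (σ q.1.1)) := by
    rintro q ⟨h1, h2, h3⟩
    exact ⟨hinj _ h1.1 _ (hiU _ q.2.1) (q.2.2.trans (hπs _ i).symm) (sub_eq_zero.1 h2),
      hinj _ (hσU _ q.2.1) _ (hiU _ q.2.1) (hπs _ i).symm (sub_eq_zero.1 h3)⟩
  have hZs : ∀ j, j ≠ i → ∀ y ∈ W, P (some j) y ∉ D.modif.Z := fun j hj y hy hz => by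
    have h1 := (hZ _ hz).1
    rw [eP _ y hy] at h1
    exact hj (s_inj hC (hC.2.2.1 _) h1)
  obtain ⟨σ₁, hσ₁, e₁⟩ := BubData.sec (D := D) hW ⟨y₀, hy₀⟩ (hP none)
    (fun b hb => show (P none b).1.2 ∈ U ∧ u (P none b).1.2 ≠ 0 by
      rw [eP2 _ b hb]; exact ⟨hσU b hb, hu0 _ (hσU b hb)⟩) (μ := fun _ => 1)
    (fun _ _ => analyticAt_const)
    (fun b hb => show u (P none b).1.2 - u (C.s i (C.π (σ (P none b).1.1))) =
      (u (σ b) - u (C.s i (C.π (σ b)))) * 1 by rw [eP _ b hb, mul_one]; rfl)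
  obtain ⟨σ₀, hσ₀, e₀⟩ := BubData.sec (D := D) hW ⟨y₀, hy₀⟩ (hP (some i))
    (fun b hb => show (P (some i) b).1.2 ∈ U ∧ u (P (some i) b).1.2 ≠ 0 by
      rw [eP2 _ b hb]; exact ⟨hiU b hb, hu0 _ (hiU b hb)⟩) (μ := fun _ => 0)
    (fun _ _ => analyticAt_const)
    (fun b hb => show u (P (some i) b).1.2 - u (C.s i (C.π (σ (P (some i) b).1.1))) =
      (u (σ b) - u (C.s i (C.π (σ b)))) * 0 by rw [eP _ b hb, mul_zero]; exact sub_self _)
  have hF : D.modif.Fib := BubData.fib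
  let s' : Option L → Cm k → D.modif.T.X := fun o y =>
    o.elim (D.modif.ιN (σ₁ y)) fun j =>
      if j = i then D.modif.ιN (σ₀ y) else hF.lift (P (some j) y)
  have si : ∀ y, s' (some i) y = D.modif.ιN (σ₀ y) := fun y => if_pos rfl
  have sj : ∀ j, j ≠ i → ∀ y, s' (some j) y = hF.lift (P (some j) y) := fun j hj y => if_neg hj
  have hr : ∀ o, ∀ y ∈ W, D.modif.r (s' o y) = P o y := by
    intro o y hy
    cases o with
    | none => exact (D.modif.rN _).trans (e₁ y hy).1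
    | some j =>
      by_cases hj : j = i
      · subst hj; rw [si]; exact (D.modif.rN _).trans (e₀ y hy).1
      · rw [sj j hj]; exact hF.r_lift _
  have hfin : ∀ y ∈ W, ∀ o, o = none ∨ o = some i →
      ∃ c, D.a c ≠ OnePoint.infty ∧ s' o y = D.modif.ιN c := by
    rintro y hy _ (rfl | rfl)
    · exact ⟨σ₁ y, by rw [(e₁ y hy).2]; exact OnePoint.coe_ne_infty _, rfl⟩
    · exact ⟨σ₀ y, by rw [(e₀ y hy).2]; exact OnePoint.coe_ne_infty _, si y⟩
  have h01 : ∀ y ∈ W, s' none y ≠ s' (some i) y := fun y hy e => by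
    have h1 := congrArg D.a (D.modif.embN.injective (e.trans (si y)))
    rw [(e₁ y hy).2, (e₀ y hy).2] at h1
    exact one_ne_zero (OnePoint.coe_injective h1)
  have hst : (toFam (h.F.modify D.modif hF) s').IsStable := by
    refine isStable_toFam (h.F.modify D.modif hF) s' (fun o => ?_) (fun o y hy => ?_)
      (fun o o' y hy e => ?_) fun y hy => ?_
    · cases o with
      | none => exact D.modif.secN hσ₁
      | some j =>
        by_cases hj : j = i
        · subst hj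
          rw [show s' (some j) = D.modif.ιN ∘ σ₀ from funext si]
          exact D.modif.secN hσ₀
        · rw [show s' (some j) = hF.lift ∘ P (some j) from funext (sj j hj)]
          exact hF.sec (hP (some j)) (hZs j hj)
    · by_cases ho : o = none ∨ o = some i
      · obtain ⟨c, h1, h2⟩ := hfin y hy o ho
        rw [h2]
        exact D.modif.smoothN (BubData.smooth₁ h1)
      · cases o with
        | none => exact absurd (Or.inl rfl) ho
        | some j =>
          have hj : j ≠ i := fun e => ho (Or.inr (congrArg some e))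
          rw [sj j hj]
          refine hF.smooth (hZs j hj y hy) (h.smooth ?_)
          rw [eP2 _ y hy]; exact sp_s hC (hC.2.2.1 _) j
    · have e1 : mk C (σ y) o = mk C (σ y) o' := by
        rw [← eP2 o y hy, ← eP2 o' y hy, ← hr o y hy, ← hr o' y hy, e]
      cases o with
      | none =>
        cases o' with
        | none => rfl
        | some j =>
          by_cases hj : j = i
          · subst hj; exact absurd e (h01 y hy)
          · exact absurd e1.symm (hσs y hy j hj)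
      | some j =>
        cases o' with
        | none =>
          by_cases hj : j = i
          · subst hj; exact absurd e.symm (h01 y hy)
          · exact absurd e1 (hσs y hy j hj)
        | some j' => rw [s_inj hC (hC.2.2.1 _) e1]
    · refine bub_inh (D := D) (P := {p | ∃ o, P o y = p}) ?_ ?_ ?_ fun Dr hD => ?_
      · rintro _ ⟨o, rfl⟩
        exact ⟨_, ⟨o, rfl⟩, hr o y hy⟩
      · intro q hq e
        refine ⟨some i, (si y).trans
          (congrArg D.modif.ιN (Subtype.ext (Prod.ext ?_ (e₀ y hy).2)))⟩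
        refine (e₀ y hy).1.trans (Subtype.ext ?_)
        have e1 : q.1.1 = y := e
        rw [eP _ y hy]
        exact Prod.ext e1.symm
          ((congrArg (fun b => C.s i (C.π (σ b))) e1.symm).trans (hZ q hq).1.symm)
      · intro q hq e
        refine ⟨none, congrArg D.modif.ιN (Subtype.ext (Prod.ext ?_ (e₁ y hy).2))⟩
        refine (e₁ y hy).1.trans (Subtype.ext ?_)
        have e1 : q.1.1 = y := e
        rw [eP _ y hy]
        exact Prod.ext e1.symm
          ((congrArg σ e1.symm).trans ((hZ q hq).2.trans (hZ q hq).1.symm))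
      · exact h.noField (P := fun o y => mk C (σ y) o) hne hy (fun o => π_mk hC _ o)
          (fun i => ⟨some i, rfl⟩) Dr ((isField_toFam (F := h.F)).2 hD)
  have hcont : Continuous fun q : D.modif.T.X => (D.modif.r q).1.2 :=
    Continuous.comp (g := fun q : Tot C W (fun y => C.π (σ y)) => q.1.2) cont_snd D.modif.cont_r
  have hπ : ∀ q : D.modif.T.X, C.π (D.modif.r q).1.2 = C.π (σ (D.modif.T.π q)) := fun q => by
    rw [← D.modif.πr]; exact (D.modif.r q).2.2
  have hpull : ∀ (p : D.modif.T.X) f, C.hol f (D.modif.r p).1.2 →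
      D.modif.T.hol p fun q => f (D.modif.r q).1.2 :=
    fun p f hf => D.modif.pull p _ (h.pull _ hf)
  have hfb : ∀ y ∈ W, Gen C (σ y) → FB (toFam (h.F.modify D.modif hF) s') y C (C.π (σ y))
      fun q => (D.modif.r q).1.2 := by
    intro y hy hg
    refine (h.fb (fun o y => mk C (σ y) o) hne hy).comp (fb_mod h.F D.modif hF P s' ?_)
    intro q hq e
    have e1 : q.1.1 = y := e
    exact hg.2 i (e1 ▸ (hZ q hq).2.symm)
  have hΨ : ∀ y ∈ W, ∀ o, (D.modif.r (s' o y)).1.2 = mk C (σ y) o :=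
    fun y hy o => by rw [hr o y hy, eP2 o y hy]
  have hext : ∀ c, Function.extend D.modif.ιN D.fa 0 (D.modif.ιN c) = D.fa c :=
    fun c => D.modif.embN.injective.extend_apply _ _ c
  refine ⟨toFam (h.F.modify D.modif hF) s', fun q => (D.modif.r q).1.2,
    Function.extend D.modif.ιN D.fa 0, hst, hy₀, hcont, hπ, hpull, fun y hy =>
    ⟨hσ y hy, ?_, hΨ y hy, hfb y hy, fun hg => ?_, fun j hj w hw hcw => ?_, fun o ho => ?_⟩⟩
  · rintro _ (rfl | rfl)
    · exact hU₀ _ (hUU (hσU y hy))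
    · exact hU₀ _ (hUU (hiU y hy))
  · have h1 := hfb y hy hg
    have h2 : FB (fg (toFam (h.F.modify D.modif hF) s')) y (fg C) (C.π (σ y))
        fun q => (D.modif.r q).1.2 := ⟨h1.bij, h1.nf, h1.pull, h1.push⟩
    exact ⟨h.mem y hy, h.an y hy, h2.iso fun i => i.elim,
      fun p _ => ⟨hcont.continuousAt, hpull p⟩⟩
  · have e : (D.modif.r (s' (some j) y)).1.2 = C.s j (C.π (σ y)) := hΨ y hy (some j)
    rw [← e] at hw hcw
    obtain ⟨V, hV, hi⟩ := hcw.2
    have h1 : Tendsto (fun q : D.modif.T.X => (D.modif.r q).1.2)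
        (nf (toFam (h.F.modify D.modif hF) s') (s' (some j) y))
        (nf C (D.modif.r (s' (some j) y)).1.2) := by
      refine hcont.continuousAt.continuousWithinAt.tendsto_nhdsWithin fun q hq => ?_
      have h2 : D.modif.T.π q = D.modif.T.π (s' (some j) y) := hq
      exact (hπ q).trans ((congrArg (fun b => C.π (σ b)) h2).trans (hπ _).symm)
    have h3 : ∀ᶠ q in 𝓝 (s' (some j) y), D.modif.r q ∉ D.modif.Z :=
      D.modif.cont_r.continuousAt (D.modif.closed.isOpen_compl.mem_nhds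
        (by rw [hr _ y hy]; exact hZs j hj y hy))
    refine ⟨⟨_, hpull _ w hw, EventuallyEq.rfl⟩, _,
      (h1.eventually hV).and ((h3.filter_mono (nf_le _ _)).and (nf_fib _ _)), ?_⟩
    intro q hq q' hq' e1
    refine D.modif.r_inj hq.2.1 hq'.2.1 (Subtype.ext (Prod.ext ?_ (hi hq.1 hq'.1 e1)))
    exact (D.modif.πr q).trans ((hq.2.2.trans hq'.2.2.symm).trans (D.modif.πr q').symm)
  · obtain ⟨c₀, hc₀, ec⟩ := hfin y hy o ho
    have ec' : (toFam (h.F.modify D.modif hF) s').s o y = D.modif.ιN c₀ := ec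
    rw [ec']
    have co₁ := D.coord₁
    have ha : D.modif.T.hol (D.modif.ιN c₀) (Function.extend D.modif.ιN D.fa 0) :=
      hol_ext D.modif (co₁.hol_ξ hc₀)
    have h1 : D.modif.ιN '' {c | D.a c ≠ OnePoint.infty} ∈ 𝓝 (D.modif.ιN c₀) :=
      (D.modif.embN.isOpenMap _ co₁.isOpen).mem_nhds ⟨_, hc₀, rfl⟩
    refine ⟨ha, ⟨⟨_, ha, EventuallyEq.rfl⟩, _,
      inter_mem (nf_le _ _ h1) (nf_fib (toFam (h.F.modify D.modif hF) s') _), ?_⟩, ?_⟩
    · rintro _ ⟨⟨c, hc, rfl⟩, h2⟩ _ ⟨⟨c', hc', rfl⟩, h2'⟩ e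
      refine congrArg _ (co₁.inj hc hc' (Prod.ext ?_ ((hext c).symm.trans (e.trans (hext c')))))
      exact (πN D.modif c).symm.trans ((Eq.trans h2 (Eq.symm h2')).trans (πN D.modif c'))
    · have h3 : ∀ᶠ q in map D.modif.ιN (𝓝 c₀),
          z (D.modif.r q).1.2 - z (C.s i (C.π (σ (D.modif.T.π q)))) =
          (z (σ (D.modif.T.π q)) - z (C.s i (C.π (σ (D.modif.T.π q))))) *
            Function.extend D.modif.ιN D.fa 0 q := by
        refine Filter.eventually_map.2 ?_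
        filter_upwards [BubData.ev_fin hc₀] with c hc
        rw [hext, D.modif.rN, πN]
        have h4 : u (D.ρ c).1.2 - u (C.s i (C.π (σ (D.ρ c).1.1))) =
          (u (σ (D.ρ c).1.1) - u (C.s i (C.π (σ (D.ρ c).1.1)))) * D.fa c := (BubData.rel c).1 hc
        simp only [eu, sub_sub_sub_cancel_right] at h4
        exact h4
      exact h3.filter_mono (D.modif.embN.map_nhds_eq c₀).ge

end Vale.Agent.P269C
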