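import Vale.Agent.P269CT.Sec
import Vale.Agent.P273.H949.NodeInh
import Vale.Agent.P273.H469.Sec

/-!
P269, block C: the stabilised family when the extra mark passes through a node.
-/

set_option autoImplicit false
set_option linter.all false
set_option maxSynthPendingDepth 3

noncomputable section

namespace Vale.Agent.P269C

open Set Filter Topology Vale.Agent.P273.H183 Vale.Agent.P272.K Vale.Agent.P269CT
open Vale.Agent.P273.H948 Vale.Agent.P273.H949 Vale.Agent.P273.H469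

variable {L L' : Type} {m k : ℕ}

/-- A modification induces isomorphisms of the fibres that do not meet the centre. -/
theorem fb_mod (F : PFam k) {N' : Surf k} (M : Modif F.S N') (hF : M.Fib)
    (s : L → Cm k → F.S.X) (s' : L' → Cm k → M.T.X) {y : Cm k} (hZ : ∀ x ∈ M.Z, F.S.π x ≠ y) :
    FB (toFam (F.modify M hF) s') y (toFam F s) y M.r := by
  have h1 : ∀ p ∈ (toFam (F.modify M hF) s').fib y, M.r p ∈ (toFam F s).fib y :=
    fun p hp => (M.πr p).trans hp
  have h2 : ∀ p ∈ (toFam (F.modify M hF) s').fib y, M.r p ∉ M.Z :=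
    fun p hp h => hZ _ h (h1 p hp)
  have h3 : ∀ p ∈ (toFam F s).fib y, hF.lift p ∈ (toFam (F.modify M hF) s').fib y :=
    fun p hp => (hF.lift_π p).trans hp
  refine ⟨⟨h1, fun p hp q hq e => M.r_inj (h2 p hp) (h2 q hq) e,
    fun p hp => ⟨_, h3 p hp, hF.r_lift p⟩⟩, fun p hp => ?_, fun p _ f hf => M.pull p f hf,
    fun p hp f hf => ⟨f ∘ hF.lift, hF.lift_hol (h2 p hp) ?_, ?_⟩⟩
  · rw [nf_eq hp, nf_eq (h1 p hp)]
    refine le_antisymm (M.cont_r.continuousAt.continuousWithinAt.tendsto_nhdsWithin h1) ?_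
    have h4 := (hF.lift_cont (h2 p hp)).continuousWithinAt.tendsto_nhdsWithin h3
    rw [hF.lift_eq (h2 p hp)] at h4
    intro V hV
    filter_upwards [h4 (Filter.mem_map.1 hV)] with q hq
    have h5 : M.r (hF.lift q) ∈ V := hq
    exact (congrArg (· ∈ V) (hF.r_lift q)).mp h5
  · rw [hF.lift_eq (h2 p hp)]; exact hf
  · rw [nf_eq hp]
    filter_upwards [self_mem_nhdsWithin] with q hq
    exact congrArg f (hF.lift_eq (h2 q hq)).symm

/-- **The stabilised family at a node.** -/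
theorem stb_node [Finite L] {C : Fam L m} {σ : Cm k → C.X} {y₀ : Cm k} {U : Set C.X}
    {x w : C.X → ℂ} {t : Cm m → ℂ} (hC : C.IsStable) (hs : ∀ᶠ y in 𝓝 y₀, HolAt C σ y)
    (hU : IsChart C.π C.hol U x w t) (h0 : σ y₀ ∈ U) (hx : x (σ y₀) = 0) (hw : w (σ y₀) = 0) :
    ∃ (E : Fam (Option L) k) (Ψ : E.X → C.X) (a : E.X → ℂ), E.IsStable ∧ y₀ ∈ E.B ∧
      Continuous Ψ ∧ (∀ p, C.π (Ψ p) = C.π (σ (E.π p))) ∧
      (∀ p f, C.hol f (Ψ p) → E.hol (fun q => f (Ψ q)) p) ∧ ∀ y ∈ E.B,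
      HolAt C σ y ∧ σ y ∈ U ∧ (∀ o, Ψ (E.s o y) = mk C (σ y) o) ∧
      (Gen C (σ y) → FB E y C (C.π (σ y)) Ψ) ∧
      (Gen C (σ y) → Mor (fg E) (fg C) (fun y => C.π (σ y)) Ψ y) ∧
      (∀ i z, C.hol z (C.s i (C.π (σ y))) → Co C z (C.s i (C.π (σ y))) →
        Co E (fun q => z (Ψ q)) (E.s (some i) y)) ∧
      E.hol a (E.s none y) ∧ Co E a (E.s none y) ∧
      ∀ᶠ q in 𝓝 (E.s none y), x (Ψ q) = x (σ (E.π q)) * a q := by
  have hm := mo_of hU
  have hne0 : ∀ i, C.s i (C.π (σ y₀)) ≠ σ y₀ := fun i e => by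
    have h1 := sp_s hC (hC.2.2.1 (σ y₀)) i U x w t hU (e.symm ▸ h0)
    rw [e, hx, hw] at h1
    simp at h1
  have hc := hs.self_of_nhds.1
  have hc1 : ∀ᶠ y in 𝓝 y₀, σ y ∈ U := hc (hm.isOpen.mem_nhds h0)
  have hc2 : ∀ᶠ y in 𝓝 y₀, ∀ i, C.s i (C.π (σ y)) ≠ σ y :=
    eventually_all.2 fun i => hc.eventually (ev_ne_s hC (hne0 i))
  obtain ⟨W, hW1, hW, hy₀⟩ := mem_nhds_iff.1 (hs.and (hc1.and hc2))
  have hσ : ∀ y ∈ W, HolAt C σ y := fun y hy => (hW1 hy).1
  have hσU : ∀ y ∈ W, σ y ∈ U := fun y hy => (hW1 hy).2.1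
  have hσs : ∀ y ∈ W, ∀ i, C.s i (C.π (σ y)) ≠ σ y := fun y hy => (hW1 hy).2.2
  have h := pd_of hC hW hσ
  have hne := tot_ne C σ ⟨y₀, hy₀⟩
  have a₀ : ∀ y ∈ W, AnalyticAt ℂ (fun a => x (σ a)) y :=
    fun y hy => (hσ y hy).2 _ (hm.hol_u (hσU y hy))
  have a₁ : ∀ y ∈ W, AnalyticAt ℂ (fun a => w (σ a)) y :=
    fun y hy => (hσ y hy).2 _ (hm.hol_v (hσU y hy))
  have md := tot_model h.op h.an hm
  let D : NodeData h.S :=
    { U := {q | q.1.2 ∈ U}
      u := fun q => x q.1.2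
      v := fun q => w q.1.2
      t := fun y => t (C.π (σ y))
      τ₀ := fun y => x (σ y)
      τ₁ := fun y => w (σ y)
      mod := md
      an₀ := fun q _ => a₀ _ q.2.1
      an₁ := fun q _ => a₁ _ q.2.1
      fac := fun q _ => by
        filter_upwards [hW.mem_nhds q.2.1] with b hb
        exact (hm.eqn _ (hσU b hb)).symm
      cl := closed_node (S := h.S) md (fun q => (a₀ _ q.2.1).continuousAt)
        (fun q => (a₁ _ q.2.1).continuousAt) fun q e₀ e₁ =>
          ⟨⟨(q.1.1, σ q.1.1), q.2.1, rfl⟩, hσU _ q.2.1, Prod.ext rfl (Prod.ext e₀ e₁)⟩ }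
  let P : Option L → Cm k → h.S.X := fun o y => tPt hne y (mk C (σ y) o)
  have hP : ∀ o, IsSec h.S W (P o) :=
    fun o => h.sec hne fun y hy => ⟨(hσ y hy).mk hC o, π_mk hC _ o⟩
  have eP : ∀ o, ∀ y ∈ W, (P o y).1 = (y, mk C (σ y) o) := fun o y hy => tPt_val hy (π_mk hC _ o)
  have eP2 : ∀ o, ∀ y ∈ W, (P o y).1.2 = mk C (σ y) o := fun o y hy => congrArg Prod.snd (eP o y hy)
  have hZ : ∀ q ∈ D.Z, q.1.2 = σ q.1.1 ∧ x (σ q.1.1) = 0 ∧ w (σ q.1.1) = 0 := by
    rintro q ⟨h1, h2, h3, h4, h5⟩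
    refine ⟨hm.inj h1 (hσU _ q.2.1) (Prod.ext q.2.2 (Prod.ext ?_ ?_)), h4, h5⟩
    · exact Eq.trans h2 (Eq.symm h4)
    · exact Eq.trans h3 (Eq.symm h5)
  have hZs : ∀ i, ∀ y ∈ W, P (some i) y ∉ D.modif.Z := fun i y hy hz => by
    have h1 := (hZ _ hz).1
    rw [eP _ y hy] at h1
    exact hσs y hy i h1
  obtain ⟨σ', hσ', eσ'⟩ := NodeData.sec (D := D) hW ⟨y₀, hy₀⟩ (hP none)
    (fun b hb => show (P none b).1.2 ∈ U by rw [eP2 _ b hb]; exact hσU b hb) (μ := fun _ => 1)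
    (fun _ _ => analyticAt_const)
    (fun b hb => show x (P none b).1.2 = x (σ b) * 1 by rw [eP2 _ b hb, mul_one]; rfl)
    (fun b hb => show 1 * w (P none b).1.2 = w (σ b) by rw [eP2 _ b hb, one_mul]; rfl)
  have hF : D.modif.Fib := NodeData.fib
  let s' : Option L → Cm k → D.modif.T.X := fun o y =>
    o.elim (D.modif.ιN (σ' y)) fun i => hF.lift (P (some i) y)
  have hr : ∀ o, ∀ y ∈ W, D.modif.r (s' o y) = P o y := by
    intro o y hy
    cases o with
    | none => exact (D.modif.rN _).trans (eσ' y hy).1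
    | some i => exact hF.r_lift _
  have hfin : ∀ y ∈ W, D.a (σ' y) ≠ OnePoint.infty := fun y hy => by
    rw [(eσ' y hy).2]; exact OnePoint.coe_ne_infty _
  have hfa : ∀ y ∈ W, D.fa (σ' y) ≠ 0 := fun y hy => by
    change fv (D.a (σ' y)) ≠ 0
    rw [(eσ' y hy).2, fv_coe]; exact one_ne_zero
  have hst : (toFam (h.F.modify D.modif hF) s').IsStable := by
    refine isStable_toFam (h.F.modify D.modif hF) s' (fun o => ?_) (fun o y hy => ?_) (fun o o' y hy e => ?_)
      fun y hy => ?_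
    · cases o with
      | none => exact D.modif.secN hσ'
      | some i => exact hF.sec (hP (some i)) (hZs i)
    · cases o with
      | none => exact D.modif.smoothN (NodeData.smooth₁ (hfin y hy) (Or.inl (hfa y hy)))
      | some i =>
        refine hF.smooth (hZs i y hy) (h.smooth ?_)
        rw [eP2 _ y hy]; exact sp_s hC (hC.2.2.1 _) i
    · have e1 : mk C (σ y) o = mk C (σ y) o' := by
        rw [← eP2 o y hy, ← eP2 o' y hy, ← hr o y hy, ← hr o' y hy, e]
      cases o with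
      | none =>
        cases o' with
        | none => rfl
        | some j => exact absurd e1.symm (hσs y hy j)
      | some i =>
        cases o' with
        | none => exact absurd e1 (hσs y hy i)
        | some j => rw [s_inj hC (hC.2.2.1 _) e1]
    · refine node_inh (D := D) (P := {p | ∃ o, P o y = p}) ?_ ?_ fun Dr hD => ?_
      · rintro _ ⟨o, rfl⟩
        exact ⟨_, ⟨o, rfl⟩, hr o y hy⟩
      · intro q hq e
        refine ⟨none, congrArg D.modif.ιN (Subtype.ext (Prod.ext ?_ (eσ' y hy).2))⟩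
        refine (eσ' y hy).1.trans (Subtype.ext ?_)
        have e1 : q.1.1 = y := e
        rw [eP _ y hy]
        exact Prod.ext e1.symm ((congrArg σ e1.symm).trans (hZ q hq).1.symm)
      · exact h.noField (P := fun o y => mk C (σ y) o) hne hy (fun o => π_mk hC _ o)
          (fun i => ⟨some i, rfl⟩) Dr ((isField_toFam (F := h.F)).2 hD)
  have hcont : Continuous fun q : D.modif.T.X => (D.modif.r q).1.2 :=
    Continuous.comp (g := fun q : Tot C W (fun y => C.π (σ y)) => q.1.2) cont_snd D.modif.cont_r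
  have hπ : ∀ q : D.modif.T.X, C.π (D.modif.r q).1.2 = C.π (σ (D.modif.T.π q)) := fun q => by
    rw [← D.modif.πr]; exact (D.modif.r q).2.2
  have hpull : ∀ (p : D.modif.T.X) f, C.hol f (D.modif.r p).1.2 →
      D.modif.T.hol p fun q => f (D.modif.r q).1.2 :=
    fun p f hf => D.modif.pull p _ (h.pull _ hf)
  have hfb : ∀ y ∈ W, Gen C (σ y) → FB (toFam (h.F.modify D.modif hF) s') y C (C.π (σ y))
      fun q => (D.modif.r q).1.2 := by
    intro y hy hg
    refine (h.fb (fun o y => mk C (σ y) o) hne hy).comp (fb_mod h.F D.modif hF P s' ?_)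
    intro q hq e
    have e1 : q.1.1 = y := e
    have h1 := hg.sp U x w t hU (hσU y hy)
    rw [← e1, (hZ q hq).2.1, (hZ q hq).2.2] at h1
    simp at h1
  have hΨ : ∀ y ∈ W, ∀ o, (D.modif.r (s' o y)).1.2 = mk C (σ y) o :=
    fun y hy o => by rw [hr o y hy, eP2 o y hy]
  have ha : ∀ y ∈ W, D.modif.T.hol (D.modif.ιN (σ' y)) (Function.extend D.modif.ιN D.fa 0) :=
    fun y hy => hol_ext D.modif (D.model₁.hol_u (hfin y hy))
  have hext : ∀ c, Function.extend D.modif.ιN D.fa 0 (D.modif.ιN c) = D.fa c :=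
    fun c => D.modif.embN.injective.extend_apply _ _ c
  refine ⟨toFam (h.F.modify D.modif hF) s', fun q => (D.modif.r q).1.2,
    Function.extend D.modif.ιN D.fa 0, hst, hy₀, hcont, hπ, hpull, fun y hy =>
    ⟨hσ y hy, hσU y hy, hΨ y hy, hfb y hy, fun hg => ?_, fun i z hz hco => ?_, ha y hy, ?_, ?_⟩⟩
  · have h1 := hfb y hy hg
    have h2 : FB (fg (toFam (h.F.modify D.modif hF) s')) y (fg C) (C.π (σ y))
        fun q => (D.modif.r q).1.2 := ⟨h1.bij, h1.nf, h1.pull, h1.push⟩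
    exact ⟨h.mem y hy, h.an y hy, h2.iso fun i => i.elim,
      fun p _ => ⟨hcont.continuousAt, hpull p⟩⟩
  · have e : (D.modif.r (s' (some i) y)).1.2 = C.s i (C.π (σ y)) := hΨ y hy (some i)
    rw [← e] at hz hco
    obtain ⟨V, hV, hi⟩ := hco.2
    have h1 : Tendsto (fun q : D.modif.T.X => (D.modif.r q).1.2)
        (nf (toFam (h.F.modify D.modif hF) s') (s' (some i) y))
        (nf C (D.modif.r (s' (some i) y)).1.2) := by
      refine hcont.continuousAt.continuousWithinAt.tendsto_nhdsWithin fun q hq => ?_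
      have h2 : D.modif.T.π q = D.modif.T.π (s' (some i) y) := hq
      exact (hπ q).trans ((congrArg (fun b => C.π (σ b)) h2).trans (hπ _).symm)
    have h3 : ∀ᶠ q in 𝓝 (s' (some i) y), D.modif.r q ∉ D.modif.Z :=
      D.modif.cont_r.continuousAt (D.modif.closed.isOpen_compl.mem_nhds
        (by rw [hr _ y hy]; exact hZs i y hy))
    refine ⟨⟨_, hpull _ z hz, EventuallyEq.rfl⟩, _,
      (h1.eventually hV).and ((h3.filter_mono (nf_le _ _)).and (nf_fib _ _)), ?_⟩
    intro q hq q' hq' e1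
    refine D.modif.r_inj hq.2.1 hq'.2.1 (Subtype.ext (Prod.ext ?_ (hi hq.1 hq'.1 e1)))
    exact (D.modif.πr q).trans ((hq.2.2.trans hq'.2.2.symm).trans (D.modif.πr q').symm)
  · have co := NodeData.coord (D := D)
    have h1 : D.modif.ιN '' {c | D.a c ≠ OnePoint.infty ∧ D.fa c ≠ 0} ∈ 𝓝 (D.modif.ιN (σ' y)) :=
      (D.modif.embN.isOpenMap _ co.isOpen).mem_nhds ⟨_, ⟨hfin y hy, hfa y hy⟩, rfl⟩
    refine ⟨⟨_, ha y hy, EventuallyEq.rfl⟩, _,
      inter_mem (nf_le _ _ h1) (nf_fib (toFam (h.F.modify D.modif hF) s') _), ?_⟩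
    rintro _ ⟨⟨c, hc, rfl⟩, h2⟩ _ ⟨⟨c', hc', rfl⟩, h2'⟩ e
    refine congrArg _ (co.inj hc hc' (Prod.ext ?_ ((hext c).symm.trans (e.trans (hext c')))))
    exact (πN D.modif c).symm.trans ((Eq.trans h2 (Eq.symm h2')).trans (πN D.modif c'))
  · have h3 : ∀ᶠ q in map D.modif.ιN (𝓝 (σ' y)), x (D.modif.r q).1.2 =
        x (σ (D.modif.T.π q)) * Function.extend D.modif.ιN D.fa 0 q := by
      refine Filter.eventually_map.2 ?_
      filter_upwards [NodeData.ev_fin (hfin y hy)] with c hc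
      rw [hext, D.modif.rN, πN]
      exact ((NodeData.rel c).1 hc).1
    rw [D.modif.embN.map_nhds_eq] at h3
    exact h3

end Vale.Agent.P269C
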