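import Vale.Agent.P269C.Spec

/-!
Block C of P269: the global rows.
-/

set_option autoImplicit false
set_option linter.all false
set_option maxSynthPendingDepth 3

noncomputable section

namespace Vale.Agent.P269C

open Set Filter Asymptotics MeasureTheory MvPolynomial Vale.Agent.P273.H183 Vale.Agent.P272.K
open scoped Topology ContDiff Matrix ComplexOrder Classical

variable {L L' : Type} {m g D : ℕ}

/-- natural closed forms on an atlas -/
structure NatB (A : Atlas g D L) (β : Fin A.k → Cm D → Po D) : Prop where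
  gd : ∀ a, ∀ y ∈ (A.C a).B, Gd y (β a)
  nat : ∀ a b φ Φ, ∀ y ∈ (A.C a).B, Sm (A.C a) y →
    (∀ᶠ x in 𝓝 y, Mor (A.C a) (A.C b) φ Φ x) → β a y = pb (jac φ y) (β b (φ y))

/-- natural smooth functions on an atlas -/
structure NatF (A : Atlas g D L) (u : Fin A.k → Cm D → ℝ) : Prop where
  sm : ∀ a, ∀ y ∈ (A.C a).B, ContDiffAt ℝ ∞ (u a) y
  nat : ∀ a b y x, y ∈ (A.C a).B → x ∈ (A.C b).B → Sm (A.C a) y →
    (Iso (A.C a) y (A.C b) x).Nonempty → u a y = u b x

/-- the form `P(λ) ∏ ψ_i ^ m_i` -/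
def fm [Fintype L] (G : Gm g) (h : Hm L) (P : MvPolynomial ℕ ℂ) (n : L → ℕ) (C : Fam L m)
    (b : Cm m) : Po m := aeval (lam G C b) P * ∏ i, psi h C b i ^ n i

/-- its integral -/
def Atlas.iv [Fintype L] (A : Atlas g D L) (G : Gm g) (h : Hm L) (P : MvPolynomial ℕ ℂ)
    (n : L → ℕ) : ℂ := A.int fun a b => fm G h P n (A.C a) b

/-- Row KEYB: the theorem of Stokes on an atlas. -/
def KEYB : Prop := ∀ (g D : ℕ) (L : Type) (A : Atlas g D L) (u : Fin A.k → Cm D → ℝ)
  (β : Fin A.k → Cm D → Po D), NatF A u → NatB A β → (A.int fun a y => dd (u a) y * β a y) = 0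

/-- Row NB: closure properties of natural forms, additivity of the integral. -/
structure NB : Prop where
  cst : ∀ {g D : ℕ} {L : Type} (A : Atlas g D L) (c : ℂ), NatB A fun _ _ => C c
  add : ∀ {g D : ℕ} {L : Type} {A : Atlas g D L} {β γ}, NatB A β → NatB A γ → NatB A (β + γ)
  mul : ∀ {g D : ℕ} {L : Type} {A : Atlas g D L} {β γ}, NatB A β → NatB A γ → NatB A (β * γ)
  psi : ∀ {g D : ℕ} {L : Type} (A : Atlas g D L) {h : Hm L}, IsPsi h → ∀ i,
    NatB A fun a b => psi h (A.C a) b i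
  lam : ∀ {g D : ℕ} {L : Type} [Finite L] (A : Atlas g D L) {G : Gm g}, IsLam G →
    ∀ P : MvPolynomial ℕ ℂ, NatB A fun a b => aeval (lam G (A.C a) b) P
  fm : ∀ {g D : ℕ} {L : Type} [Fintype L] (A : Atlas g D L) {G : Gm g} {h : Hm L}, IsLam G →
    IsPsi h → ∀ P n, NatB A fun a b => fm G h P n (A.C a) b
  iadd : ∀ {g D : ℕ} {L : Type} {A : Atlas g D L} {β γ}, NatB A β → NatB A γ →
    A.int (β + γ) = A.int β + A.int γ
  icg : ∀ {g D : ℕ} {L : Type} {A : Atlas g D L} {β γ : Fin A.k → Cm D → Po D},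
    (∀ a, ∀ y ∈ (A.C a).B, β a y = γ a y) → A.int β = A.int γ

/-- Row IND: the integrals do not depend on the atlas and on the metrics. -/
def IND : Prop := ∀ (g D : ℕ) (L : Type) [Fintype L] (A A' : Atlas g D L) (G : Gm g) (h h' : Hm L),
  IsLam G → IsPsi h → IsPsi h' → ∀ P n, A.iv G h P n = A'.iv G h' P n

/-- Row NOVF: smooth curves of stable type have no vector fields. -/
def NOVF : Prop := ∀ (L L' : Type) [Fintype L] (m g : ℕ) (j : L → L') (C : Fam L' m),
  Function.Injective j → C.IsStable → ∀ b ∈ C.B, Sm C b → (∃ e : Fin g → Df C, Bas C b e) →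
  2 < 2 * g + Fintype.card L → ∀ V, (sub j C).IsField b V → ∀ p ∈ C.fib b, ∀ f, C.hol f p → V f p = 0

/-- Row PART: the partition of unity at a smooth curve with one marked point forgotten. -/
def PART : Prop := ∀ (g D m : ℕ) (L : Type) [Fintype L] (A : Atlas g D L) (C : Fam (Option L) m),
  C.IsStable → ∀ x ∈ C.B, Sm C x → (∃ e : Fin g → Df C, Bas C x e) → 2 < 2 * g + Fintype.card L →
  ∑ a, ∑ᶠ b, ((Iso (sub some C) x (A.C a) b).ncard : ℝ) * A.ρ a b = 1

/-- Row STR: the string equation. -/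
def STR : Prop := ∀ (g D : ℕ) (L : Type) [Fintype L] (A : Atlas g D L)
  (A' : Atlas g (D + 1) (Option L)) (G : Gm g) (h : Hm L) (h' : Hm (Option L)),
  IsLam G → IsPsi h → IsPsi h' → 2 < 2 * g + Fintype.card L → ∀ P (n : L → ℕ),
  A'.iv G h' P (fun o => o.elim 0 n) =
    ∑ j ∈ Finset.univ.filter (fun j => n j ≠ 0), A.iv G h P (Function.update n j (n j - 1))

/-- Row DIL: the dilaton equation in genus one. -/
def DIL : Prop := ∀ (D : ℕ) (L : Type) [Fintype L] (A : Atlas 1 D L)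
  (A' : Atlas 1 (D + 1) (Option L)) (G : Gm 1) (h : Hm L) (h' : Hm (Option L)),
  IsLam G → IsPsi h → IsPsi h' → 0 < Fintype.card L → ∀ P (n : L → ℕ),
  A'.iv G h' P (fun o => o.elim 1 n) = Fintype.card L * A.iv G h P n

/-- Row V03. -/
def V03 : Prop := ∀ A : Atlas 0 0 (Fin 3), (A.int fun _ _ => 1) = 1

/-- Row V11. -/
def V11 : Prop := ∀ (A : Atlas 1 1 (Fin 1)) (G : Gm 1) (h : Hm (Fin 1)), IsLam G → IsPsi h →
  (A.int fun a b => psi h (A.C a) b 0) = 1 / 24 ∧ (A.int fun a b => lam G (A.C a) b 1) = 1 / 24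

end Vale.Agent.P269C
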