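import Vale.Agent.P269C.Mark
import Vale.Agent.P269CD.Defs2

/-!
P269, block C, rows T5 and T2: the stabilised family and the metrics on the total space.
-/

set_option autoImplicit false
set_option linter.all false
set_option maxSynthPendingDepth 3

noncomputable section

namespace Vale.Agent.P269C

open Set Filter Topology Vale.Agent.P273.H183 Vale.Agent.P272.K Vale.Agent.P269CT
open Vale.Agent.P273.H948 Vale.Agent.P273.H949 Vale.Agent.P273.H469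
open scoped ContDiff

variable {L : Type} {m k : ℕ} {C : Fam L m} {σ : Cm k → C.X} {y₀ : Cm k}
  {E : Fam (Option L) k} {Ψ : E.X → C.X} {h : Hm (Option L)}

/-- A stabilised family near `y₀`. -/
structure St (C : Fam L m) (σ : Cm k → C.X) (y₀ : Cm k) (E : Fam (Option L) k)
    (Ψ : E.X → C.X) : Prop where
  st : E.IsStable
  mem : y₀ ∈ E.B
  pull : ∀ p f, C.hol f (Ψ p) → E.hol (fun q => f (Ψ q)) p
  ms : ∀ y ∈ E.B, ∀ o, Ψ (E.s o y) = P269CT.mk C (σ y) o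
  fb : ∀ y ∈ E.B, Gen C (σ y) → FB E y C (C.π (σ y)) Ψ
  mor : ∀ y ∈ E.B, Gen C (σ y) → Mor (fg E) (fg C) (fun y => C.π (σ y)) Ψ y

theorem St.co (S : St C σ y₀ E Ψ) {y : Cm k} (hy : y ∈ E.B) (hg : Gen C (σ y)) {o : Option L}
    {z : C.X → ℂ} (hz : Co C z (P269CT.mk C (σ y) o)) : Co E (fun q => z (Ψ q)) (E.s o y) :=
  ((S.fb y hy hg).co (π_s S.st hy o)).2 (by rw [S.ms y hy o]; exact hz)

theorem St.eq (S : St C σ y₀ E Ψ) (hh : IsPsi h) {y : Cm k} (hy : y ∈ E.B) (hg : Gen C (σ y))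
    {o : Option L} {z : C.X → ℂ} (hz : Co C z (P269CT.mk C (σ y) o)) {a : E.X → ℂ}
    (ha : Co E a (E.s o y)) {κ e : ℂ} (he : ∀ᶠ q in nf E (E.s o y), z (Ψ q) - κ = e * a q) :
    e ≠ 0 ∧ H h C (σ y) o z = h k E y o a * ‖e‖ ^ 2 := by
  have h0 := nf_self he
  have hne : e ≠ 0 := by
    rintro rfl
    refine P269CK.Co.freq (P269CK.chd S.st) (S.co hy hg hz) ?_
    filter_upwards [he] with q hq
    rw [zero_mul, sub_eq_zero] at hq h0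
    rw [not_not, hq, h0]
  refine ⟨hne, ?_⟩
  have h1 := hh.1 k m E (pt C (σ y)) y (C.π (σ y)) _
    (((S.fb y hy hg).pt (σ y)).iso fun o _ => S.ms y hy o) o a (fun q => z (Ψ q)) z e⁻¹
    (fun j => π_s S.st hy j) ha hz (fun _ => rfl) (by
      refine (Asymptotics.isLittleO_zero _ _).congr' ?_ EventuallyEq.rfl
      filter_upwards [he] with q hq
      rw [sub_eq_iff_eq_add] at hq h0
      rw [hq, h0]
      field_simp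
      ring)
  rw [h1, norm_inv]
  have h2 : ‖e‖ ≠ 0 := norm_ne_zero_iff.2 hne
  change H h C (σ y) o z = ‖e‖⁻¹ ^ 2 * H h C (σ y) o z * ‖e‖ ^ 2
  field_simp

theorem St.dir (S : St C σ y₀ E Ψ) (hh : IsPsi h) (hC : C.IsStable) (hs : HolAt C σ y₀)
    {o : Option L} {z : C.X → ℂ} (hz : C.hol z (P269CT.mk C (σ y₀) o)) (hc : Co C z (P269CT.mk C (σ y₀) o))
    (hE : Co E (fun q => z (Ψ q)) (E.s o y₀)) :
    ∃ v : Cm k → ℝ, ContDiffAt ℝ ∞ v y₀ ∧ 0 < v y₀ ∧ ∀ᶠ y in 𝓝 y₀, Gen C (σ y) →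
      C.hol z (P269CT.mk C (σ y) o) ∧ Co C z (P269CT.mk C (σ y) o) ∧ H h C (σ y) o z = v y := by
  obtain ⟨h1, h2⟩ := hh.2 k E S.st y₀ S.mem o _
    (S.pull _ z (by rw [S.ms y₀ S.mem o]; exact hz)) hE
  refine ⟨_, h2, h1, ?_⟩
  have h3 := (hs.mk hC o).1
  filter_upwards [S.st.1.mem_nhds S.mem, h3.eventually (P269CK.hol_ev (P269CK.chd hC) hz),
    h3.eventually (P269CK.co_ev (P269CK.chd hC) hz hc)] with y a1 a2 a3 hg
  refine ⟨a2, a3, ?_⟩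
  have h4 := (S.eq hh a1 hg a3 (S.co a1 hg a3) (κ := 0) (e := 1)
    (Eventually.of_forall fun q => by rw [sub_zero, one_mul])).2
  rw [h4, norm_one, one_pow, mul_one]

theorem St.scl (S : St C σ y₀ E Ψ) (hh : IsPsi h) {o : Option L} {z : C.X → ℂ} {a : E.X → ℂ}
    {κ e : Cm k → ℂ} (ha : ∀ y ∈ E.B, E.hol a (E.s o y) ∧ Co E a (E.s o y) ∧
      ∀ᶠ q in 𝓝 (E.s o y), z (Ψ q) - κ (E.π q) = e (E.π q) * a q) :
    ∃ v : Cm k → ℝ, ContDiffAt ℝ ∞ v y₀ ∧ 0 < v y₀ ∧ ∀ y ∈ E.B, Gen C (σ y) →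
      Co C z (P269CT.mk C (σ y) o) → e y ≠ 0 ∧ H h C (σ y) o z = v y * ‖e y‖ ^ 2 := by
  obtain ⟨h1, h2⟩ := hh.2 k E S.st y₀ S.mem o a (ha _ S.mem).1 (ha _ S.mem).2.1
  refine ⟨_, h2, h1, fun y hy hg hz => S.eq hh hy hg hz (ha y hy).2.1 (κ := κ y) ?_⟩
  filter_upwards [(ha y hy).2.2.filter_mono (nf_le _ _), nf_fib E _] with q a1 a2
  rwa [a2, π_s S.st hy] at a1

theorem st_gen [Finite L] (hC : C.IsStable) (hs : ∀ᶠ y in 𝓝 y₀, HolAt C σ y)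
    (hg : Gen C (σ y₀)) : ∃ (E : Fam (Option L) k) (Ψ : E.X → C.X), St C σ y₀ E Ψ := by
  have h1 : ∀ᶠ y in 𝓝 y₀, Gen C (σ y) := hs.self_of_nhds.1 ((isOpen_gen hC).mem_nhds hg)
  obtain ⟨W, hW1, hW, hy₀⟩ := mem_nhds_iff.1 (hs.and h1)
  have hσ : ∀ y ∈ W, HolAt C σ y := fun y hy => (hW1 hy).1
  exact ⟨add C W σ ⟨y₀, hy₀⟩, fun x => x.1.2, add_stable hC hW _ fun y hy => hW1 hy, hy₀,
    fun x _ hf => (pd_of hC hW hσ).pull x hf,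
    fun y hy o => congrArg Prod.snd (add_s hC _ hy o), fun y hy _ => add_fb hC hW _ hσ hy,
    fun y hy _ => add_mor_fg hC hW _ hσ hy⟩

theorem tri (hC : C.IsStable) (p : C.X) : Gen C p ∨ (∃ i, p = C.s i (C.π p)) ∨
    ∃ U x w t, IsChart C.π C.hol U x w t ∧ p ∈ U ∧ x p = 0 ∧ w p = 0 := by
  by_cases hp : Sp C p
  · by_cases h1 : ∃ i, p = C.s i (C.π p)
    · exact Or.inr (Or.inl h1)
    · exact Or.inl ((gen_iff hC).2 ⟨hp, fun i e => h1 ⟨i, e.symm⟩⟩)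
  · simp only [Sp, not_forall, not_or, not_not] at hp
    obtain ⟨U, u, v, t, hU, hp, h1, h2⟩ := hp
    exact Or.inr (Or.inr ⟨U, u, v, t, hU, hp, h1, h2⟩)

theorem st_off [Finite L] (hC : C.IsStable) (hs : ∀ᶠ y in 𝓝 y₀, HolAt C σ y) :
    ∃ (E : Fam (Option L) k) (Ψ : E.X → C.X), St C σ y₀ E Ψ ∧ ∀ i z,
      σ y₀ ≠ C.s i (C.π (σ y₀)) → C.hol z (C.s i (C.π (σ y₀))) → Co C z (C.s i (C.π (σ y₀))) →
      Co E (fun q => z (Ψ q)) (E.s (some i) y₀) := by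
  rcases tri hC (σ y₀) with hg | ⟨j, hj⟩ | ⟨U, x, w, t, hU, h0, hx, hw⟩
  · obtain ⟨E, Ψ, S⟩ := st_gen hC hs hg
    exact ⟨E, Ψ, S, fun i z _ _ hz => S.co S.mem hg (o := some i) hz⟩
  · obtain ⟨z, h1, h2⟩ := ex_co hC (hj ▸ sp_s hC (hC.2.2.1 _) j : Sp C (σ y₀))
    obtain ⟨E, Ψ, a, a1, a2, -, -, a3, a4⟩ := stb_mark hC hs hj h1 h2
    exact ⟨E, Ψ, ⟨a1, a2, a3, fun y hy => (a4 y hy).2.2.1, fun y hy => (a4 y hy).2.2.2.1,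
      fun y hy => (a4 y hy).2.2.2.2.1⟩, fun i z hi =>
        (a4 y₀ a2).2.2.2.2.2.1 i (fun e => hi (e ▸ hj)) z⟩
  · obtain ⟨E, Ψ, a, a1, a2, -, -, a3, a4⟩ := stb_node hC hs hU h0 hx hw
    exact ⟨E, Ψ, ⟨a1, a2, a3, fun y hy => (a4 y hy).2.2.1, fun y hy => (a4 y hy).2.2.2.1,
      fun y hy => (a4 y hy).2.2.2.2.1⟩, fun i z _ => (a4 y₀ a2).2.2.2.2.2.1 i z⟩

/-- **Row T5.** -/
theorem t5 : P269CD.T5 := by
  intro L _ m k C σ y₀ hC hs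
  obtain ⟨E, Ψ, S, -⟩ := st_off hC hs
  exact ⟨E, Ψ, S.st, S.mem, fun y hy hg => ⟨S.mor y hy hg, S.ms y hy⟩⟩

theorem t2_off [Finite L] (hh : IsPsi h) (hC : C.IsStable) (hs : ∀ᶠ y in 𝓝 y₀, HolAt C σ y)
    {i : L} {z : C.X → ℂ} (hi : σ y₀ ≠ C.s i (C.π (σ y₀))) (hz : C.hol z (C.s i (C.π (σ y₀))))
    (hc : Co C z (C.s i (C.π (σ y₀)))) :
    ∃ v : Cm k → ℝ, ContDiffAt ℝ ∞ v y₀ ∧ 0 < v y₀ ∧ ∀ᶠ y in 𝓝 y₀, Gen C (σ y) →
      C.hol z (P269CT.mk C (σ y) (some i)) ∧ Co C z (P269CT.mk C (σ y) (some i)) ∧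
        H h C (σ y) (some i) z = v y := by
  obtain ⟨E, Ψ, S, h1⟩ := st_off hC hs
  exact S.dir hh hC hs.self_of_nhds (o := some i) hz hc (h1 i z hi hz hc)

theorem t2_on [Finite L] (hh : IsPsi h) (hC : C.IsStable) (hs : ∀ᶠ y in 𝓝 y₀, HolAt C σ y)
    {i : L} {z : C.X → ℂ} (hi : σ y₀ = C.s i (C.π (σ y₀))) (hz : C.hol z (σ y₀))
    (hc : Co C z (σ y₀)) {o : Option L} (ho : o = none ∨ o = some i) :
    ∃ v : Cm k → ℝ, ContDiffAt ℝ ∞ v y₀ ∧ 0 < v y₀ ∧ ∀ᶠ y in 𝓝 y₀, Gen C (σ y) →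
      C.hol z (P269CT.mk C (σ y) o) ∧ Co C z (P269CT.mk C (σ y) o) ∧
        z (σ y) - z (C.s i (C.π (σ y))) ≠ 0 ∧
        H h C (σ y) o z = v y * ‖z (σ y) - z (C.s i (C.π (σ y)))‖ ^ 2 := by
  obtain ⟨E, Ψ, a, a1, a2, -, -, a3, a4⟩ := stb_mark hC hs hi hz hc
  have S : St C σ y₀ E Ψ := ⟨a1, a2, a3, fun y hy => (a4 y hy).2.2.1,
    fun y hy => (a4 y hy).2.2.2.1, fun y hy => (a4 y hy).2.2.2.2.1⟩
  obtain ⟨v, h1, h2, h3⟩ := S.scl hh (o := o) (z := z) (a := a)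
    (κ := fun y => z (C.s i (C.π (σ y)))) (e := fun y => z (σ y) - z (C.s i (C.π (σ y))))
    fun y hy => (a4 y hy).2.2.2.2.2.2 o ho
  refine ⟨v, h1, h2, ?_⟩
  filter_upwards [a1.1.mem_nhds a2] with y hy hg
  have h4 := (a4 y hy).2.1 o ho
  exact ⟨h4.1, h4.2, h3 y hy hg h4.2⟩

theorem t2_all [Finite L] (hh : IsPsi h) (hC : C.IsStable) (hs : ∀ᶠ y in 𝓝 y₀, HolAt C σ y)
    (o : Option L) : ∃ (z : C.X → ℂ) (e : Cm k → ℂ) (v : Cm k → ℝ), ContDiffAt ℝ ∞ v y₀ ∧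
      0 < v y₀ ∧ AnalyticAt ℂ e y₀ ∧ ∀ᶠ y in 𝓝 y₀, Gen C (σ y) → Sm C (C.π (σ y)) →
        C.hol z (P269CT.mk C (σ y) o) ∧ Co C z (P269CT.mk C (σ y) o) ∧ e y ≠ 0 ∧
          H h C (σ y) o z = v y * ‖e y‖ ^ 2 := by
  have hσ := hs.self_of_nhds
  have one : ∀ z : C.X → ℂ, (∃ v : Cm k → ℝ, ContDiffAt ℝ ∞ v y₀ ∧ 0 < v y₀ ∧ ∀ᶠ y in 𝓝 y₀,
      Gen C (σ y) → C.hol z (P269CT.mk C (σ y) o) ∧ Co C z (P269CT.mk C (σ y) o) ∧ H h C (σ y) o z = v y) →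
      ∃ (z : C.X → ℂ) (e : Cm k → ℂ) (v : Cm k → ℝ), ContDiffAt ℝ ∞ v y₀ ∧
      0 < v y₀ ∧ AnalyticAt ℂ e y₀ ∧ ∀ᶠ y in 𝓝 y₀, Gen C (σ y) → Sm C (C.π (σ y)) →
        C.hol z (P269CT.mk C (σ y) o) ∧ Co C z (P269CT.mk C (σ y) o) ∧ e y ≠ 0 ∧
          H h C (σ y) o z = v y * ‖e y‖ ^ 2 := by
    rintro z ⟨v, h1, h2, h3⟩
    refine ⟨z, fun _ => 1, v, h1, h2, analyticAt_const, h3.mono fun y hy hg _ =>
      ⟨(hy hg).1, (hy hg).2.1, one_ne_zero, ?_⟩⟩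
    rw [(hy hg).2.2, norm_one, one_pow, mul_one]
  have two : ∀ i, σ y₀ = C.s i (C.π (σ y₀)) → o = none ∨ o = some i →
      ∃ (z : C.X → ℂ) (e : Cm k → ℂ) (v : Cm k → ℝ), ContDiffAt ℝ ∞ v y₀ ∧
      0 < v y₀ ∧ AnalyticAt ℂ e y₀ ∧ ∀ᶠ y in 𝓝 y₀, Gen C (σ y) → Sm C (C.π (σ y)) →
        C.hol z (P269CT.mk C (σ y) o) ∧ Co C z (P269CT.mk C (σ y) o) ∧ e y ≠ 0 ∧
          H h C (σ y) o z = v y * ‖e y‖ ^ 2 := by
    intro i hi ho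
    obtain ⟨z, h1, h2⟩ := ex_co hC (hi ▸ sp_s hC (hC.2.2.1 _) i : Sp C (σ y₀))
    obtain ⟨v, h3, h4, h5⟩ := t2_on hh hC hs hi h1 h2 ho
    exact ⟨z, _, v, h3, h4, (hσ.2 z h1).sub ((hσ.mk hC (some i)).2 z
      (show C.hol z (C.s i (C.π (σ y₀))) from hi ▸ h1)), h5.mono fun y hy hg _ => hy hg⟩
  cases o with
  | some i =>
    by_cases hi : σ y₀ = C.s i (C.π (σ y₀))
    · exact two i hi (Or.inr rfl)
    · obtain ⟨z, h1, h2⟩ := ex_co hC (sp_s hC (hC.2.2.1 (σ y₀)) i)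
      exact one z (t2_off hh hC hs hi h1 h2)
  | none =>
    rcases tri hC (σ y₀) with hg | ⟨j, hj⟩ | ⟨U, x, w, t, hU, h0, hx, hw⟩
    · obtain ⟨E, Ψ, S⟩ := st_gen hC hs hg
      obtain ⟨z, h1, h2⟩ := ex_co hC hg.sp
      exact one z (S.dir hh hC hσ (o := none) h1 h2 (S.co S.mem hg (o := none) h2))
    · exact two j hj (Or.inl rfl)
    · obtain ⟨E, Ψ, a, a1, a2, -, -, a3, a4⟩ := stb_node hC hs hU h0 hx hw
      have S : St C σ y₀ E Ψ := ⟨a1, a2, a3, fun y hy => (a4 y hy).2.2.1,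
        fun y hy => (a4 y hy).2.2.2.1, fun y hy => (a4 y hy).2.2.2.2.1⟩
      obtain ⟨v, h1, h2, h3⟩ := S.scl hh (o := none) (z := x) (a := a)
        (κ := fun _ => 0) (e := fun y => x (σ y)) fun y hy =>
          ⟨(a4 y hy).2.2.2.2.2.2.1, (a4 y hy).2.2.2.2.2.2.2.1,
            (a4 y hy).2.2.2.2.2.2.2.2.mono fun q hq => (sub_zero _).trans hq⟩
      have hm := mo_of hU
      refine ⟨x, _, v, h1, h2, hσ.2 x (hm.hol_u h0), ?_⟩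
      filter_upwards [a1.1.mem_nhds a2, (hσ.π hC).continuousAt.eventually
        (node_near (S := sf C hC) hm h0 hx hw)] with y hy h4 hg hsm
      have h5 := (a4 y hy).2.1
      have h6 : x (σ y) ≠ 0 := fun e => by
        obtain ⟨q, b1, b2⟩ := h4 (by rw [← hm.eqn _ h5, e, zero_mul])
        have b3 : x q = 0 := congrArg (fun a : Amb m => a.2.1) b2
        have b4 : w q = 0 := congrArg (fun a : Amb m => a.2.2) b2
        have b5 := hsm q (congrArg (fun a : Amb m => a.1) b2) U x w t hU b1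
        rw [b3, b4] at b5
        simp at b5
      have h7 : Co C x (σ y) := P269CV.co_u hm h5 h6
      exact ⟨hm.hol_u h5, h7, h3 y hy hg h7⟩

/-- **Row T2.** -/
theorem t2 : P269CD.T2 where
  all hh hC hs o := t2_all hh hC hs o
  off hh hC hs _ _ hi hz hc := (t2_off hh hC hs hi hz hc).imp fun _ h =>
    ⟨h.1, h.2.1, h.2.2.mono fun _ hy hg => (hy hg).2.2⟩
  on hh hC hs _ _ hi hz hc _ ho := (t2_on hh hC hs hi hz hc ho).imp fun _ h =>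
    ⟨h.1, h.2.1, h.2.2.mono fun _ hy hg => (hy hg).2.2.2⟩

end Vale.Agent.P269C
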